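import Vale.Agent.P218WS.Time
import Vale.Agent.P218UO.Foot

/-! Weak flows: a sheet which is separated from the rest by a gap does not appear suddenly. -/

open MeasureTheory Set Filter Topology Metric
open scoped ENNReal RealInnerProductSpace ContDiff

namespace Vale.Agent.P218WS

open P218UA P218UM P218UG P218WA P218UX
open Vale.Agent.P218.H63 (lap)

variable {w : ℝ → E3 → ℝ} {I Z : Set ℝ} {A a b r t H : ℝ} {x z n p : E3}

/-- a nonnegative function with a nonpositive integral vanishes on the surface -/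
lemma eq_zero_of_integral (h : IsW0 w I Z A) (ht : t ∈ I) (hz : w t z = 0) {g : E3 → ℝ}
    (hg : Continuous g) (hc : HasCompactSupport g) (h0 : ∀ y, 0 ≤ g y)
    (hi : ∫ y, g y ∂(ar (w t)) ≤ 0) : g z = 0 := by
  have := (h.ratio t ht).locFin
  have h1 := (integral_eq_zero_iff_of_nonneg h0 (hg.integrable_of_hasCompactSupport hc)).1
    (le_antisymm hi (integral_nonneg h0))
  obtain ⟨c, d, h2, -, h3⟩ := h.loc ⟨ht, h.notMem hz⟩
  by_contra h4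
  have h5 : 0 < g z := lt_of_le_of_ne (h0 z) (Ne.symm h4)
  obtain ⟨s, hs⟩ := (static_dens h3.toIsFlow h2 hz hg.continuousAt (half_lt_self h5)).exists
  rw [lintegral_congr_ae (g := fun _ => 0) (h1.mono fun y hy => by simp [hy]), lintegral_zero,
    nonpos_iff_eq_zero, ENNReal.ofReal_eq_zero] at hs
  linarith

lemma adj_const {ψ : E3 → ℝ} {c : ℝ} (hψ : ψ =ᶠ[𝓝 x] fun _ => c) :
    adj w (fun _ => ψ) t x = -(lap (w t) x ^ 2 * ψ x) := by
  have h1 : gradient ψ =ᶠ[𝓝 x] fun _ => 0 := hψ.gradient.trans (Eventually.of_forall fun y => by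
    simp [gradient_fun_const])
  have h2 : hs ψ x = 0 := by rw [hs, h1.fderiv_eq, fderiv_fun_const]; rfl
  simp [adj, h1.self_of_nhds, h2, trT]

lemma cut_ball (hr : 0 < r) (ht : a ≤ t) (hz : z ∉ ball x r) : cut x 4 a r t z = 0 := by
  rw [mem_ball_iff_norm, not_lt] at hz
  exact cut_eq_zero hr (by linarith [pow_le_pow_left₀ hr.le hz 2])

lemma avoid_int {ψ : E3 → ℝ} (hS : IsSurf (w t)) (hr : 0 < r) (ht : a ≤ t) (h0 : ∀ y, 0 ≤ ψ y)
    (gap : ∀ y ∈ ball x r, w t y = 0 → ∃ c, ψ =ᶠ[𝓝 y] fun _ => c) :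
    ∫ y, (ψ y * heat w (cut x 4 a r) t y + cut x 4 a r t y * adj w (fun _ => ψ) t y) ∂(ar (w t))
      ≤ 0 := by
  refine integral_nonpos_of_ae ((ae_ar hS).mono fun y hy => add_nonpos
    (mul_nonpos_of_nonneg_of_nonpos (h0 y) ?_) ?_)
  · simpa using heat_cut w x 4 a hr t (surf_unit hS hy)
  by_cases hy' : y ∈ ball x r
  · obtain ⟨c, hc⟩ := gap y hy' hy
    rw [adj_const hc]
    exact mul_nonpos_of_nonneg_of_nonpos (cut_nonneg _ _ _ _ _ _)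
      (neg_nonpos.2 (mul_nonneg (sq_nonneg _) (h0 y)))
  · rw [cut_ball hr ht hy', zero_mul]

lemma avoid0 (hC : CalcW) (h : IsW0 w I Z A) (ha : a ∈ I \ Z) (hb : b ∈ I) (hab : a ≤ b)
    (hr : 0 < r) {ψ : E3 → ℝ} (hψ : ContDiff ℝ 2 ψ) (hψc : HasCompactSupport ψ) (h0 : ∀ y, 0 ≤ ψ y)
    (gap : ∀ s ∈ Icc a b, ∀ y ∈ ball x r, w s y = 0 → ∃ c, ψ =ᶠ[𝓝 y] fun _ => c)
    (init : ∀ y ∈ ball x r, w a y = 0 → ψ y = 0) (hz : w b z = 0)
    (hzr : ‖z - x‖ ^ 2 + 4 * (b - a) < r ^ 2) : ψ z = 0 := by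
  obtain ⟨i1, i2⟩ := hC.green w I Z A h I (fun _ => ψ) (cut x 4 a r)
    (Test.static h hψ hψc) (contDiff_cut x 4 a r).contDiffOn a ha b ⟨hb, h.notMem hz⟩ hab
    fun s _ y => mul_nonneg (h0 y) (cut_nonneg _ _ _ _ _ _)
  have h1 := intervalIntegral.integral_mono_on hab i1 (intervalIntegrable_const (c := 0))
    fun s hs => avoid_int (h.slice (h.conn.out ha.1 hb hs)) hr hs.1 h0 (gap s hs)
  have h2 : ∫ y, ψ y * cut x 4 a r a y ∂(ar (w a)) = 0 :=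
    integral_eq_zero_of_ae ((ae_ar (h.slice ha.1)).mono fun y hy => by
      by_cases hy' : y ∈ ball x r
      · simp [init y hy' hy]
      · simp [cut_ball hr le_rfl hy'])
  rw [intervalIntegral.integral_zero] at h1
  rw [h2, sub_zero] at i2
  have h4 : Continuous (cut x 4 a r b) := by unfold cut; fun_prop
  have h3 := eq_zero_of_integral h hb hz (g := fun y => ψ y * cut x 4 a r b y)
    (hψ.continuous.mul h4) hψc.mul_right (fun y => mul_nonneg (h0 y) (cut_nonneg _ _ _ _ _ _))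
    (i2.trans h1)
  have h5 : 0 < cut x 4 a r b z :=
    pow_pos (lt_max_of_lt_left (sub_pos.2 ((div_lt_one (by positivity)).2 hzr))) 3
  exact (mul_eq_zero.1 h3).resolve_right h5.ne'

/-- **avoidance** for the part of the flow which is selected by a function which is locally constant
on the track -/
theorem avoid (hC : CalcW) (h : IsW0 w I Z A) (ha : a ∈ I \ Z) (hb : b ∈ I) (hab : a ≤ b)
    (hr : 0 < r) {χ : E3 → ℝ} (hχ : ContDiff ℝ 2 χ) (h0 : ∀ y, 0 ≤ χ y)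
    (gap : ∀ s ∈ Icc a b, ∀ y ∈ ball x r, w s y = 0 → ∃ c, χ =ᶠ[𝓝 y] fun _ => c)
    (init : ∀ y ∈ ball x r, w a y = 0 → χ y = 0) (hz : w b z = 0)
    (hzr : ‖z - x‖ ^ 2 + 4 * (b - a) < r ^ 2) : χ z = 0 := by
  let β : ContDiffBump x := ⟨r, 2 * r, hr, by linarith⟩
  have h1 := avoid0 hC h ha hb hab hr (ψ := χ * β) (hχ.mul β.contDiff)
    β.hasCompactSupport.mul_left (fun y => mul_nonneg (h0 y) β.nonneg) (fun s hs y hy hw =>
      let ⟨c, hc⟩ := gap s hs y hy hw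
      ⟨c * 1, hc.mul (β.eventuallyEq_one_of_mem_ball hy)⟩)
    (fun y hy hw => by simp [init y hy hw]) hz hzr
  have h4 : z ∈ closedBall x r := mem_closedBall_iff_norm.2
    (abs_le_of_sq_le_sq' (by linarith) hr.le).2
  rwa [Pi.mul_apply, β.one_of_mem_closedBall h4, mul_one] at h1

/-- avoidance across a gap in the height -/
theorem avoid_gap (hC : CalcW) (h : IsW0 w I Z A) (ha : a ∈ I \ Z) (hb : b ∈ I) (hab : a ≤ b)
    (hr : 0 < r) (hH : 0 < H)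
    (gap : ∀ s ∈ Icc a b, ∀ y ∈ ball x r, w s y = 0 → |⟪y - p, n⟫| ≤ H → |⟪y - p, n⟫| < H / 2)
    (init : ∀ y ∈ ball x r, w a y = 0 → |⟪y - p, n⟫| ≤ H) (hz : w b z = 0)
    (hzr : ‖z - x‖ ^ 2 + 4 * (b - a) < r ^ 2) : |⟪z - p, n⟫| ≤ H := by
  have hc : ContDiff ℝ 2 fun y : E3 => ⟪y - p, n⟫ :=
    (contDiff_id.sub contDiff_const).inner ℝ contDiff_const
  have hc' := hc.continuous.abs
  have hH2 : 0 < H ^ 2 := by positivity
  have h0 : ∀ y, |⟪y - p, n⟫| < H / 2 →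
      Real.smoothTransition ((4 * ⟪y - p, n⟫ ^ 2 / H ^ 2 - 1) / 3) = 0 := fun y hy => by
    refine Real.smoothTransition.zero_of_nonpos (div_nonpos_of_nonpos_of_nonneg ?_ (by norm_num))
    rw [sub_nonpos, div_le_one hH2, ← sq_abs]
    linarith [pow_le_pow_left₀ (abs_nonneg _) hy.le 2]
  have h1 : ∀ y, H < |⟪y - p, n⟫| →
      Real.smoothTransition ((4 * ⟪y - p, n⟫ ^ 2 / H ^ 2 - 1) / 3) = 1 := fun y hy => by
    refine Real.smoothTransition.one_of_one_le ?_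
    rw [le_div_iff₀ (by norm_num), le_sub_iff_add_le, le_div_iff₀ hH2, ← sq_abs ⟪y - p, n⟫]
    linarith [pow_le_pow_left₀ hH.le hy.le 2]
  have h2 := avoid hC h ha hb hab hr
    (χ := fun y => Real.smoothTransition ((4 * ⟪y - p, n⟫ ^ 2 / H ^ 2 - 1) / 3))
    (Real.smoothTransition.contDiff.comp
      ((((contDiff_const.mul (hc.pow 2)).div_const _).sub contDiff_const).div_const _))
    (fun y => Real.smoothTransition.nonneg _) (fun s hs y hy hw => by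
      rcases le_or_gt |⟪y - p, n⟫| H with h3 | h3
      · exact ⟨0, (hc'.continuousAt.eventually (gt_mem_nhds (gap s hs y hy hw h3))).mono h0⟩
      · exact ⟨1, (hc'.continuousAt.eventually (lt_mem_nhds h3)).mono h1⟩)
    (fun y hy hw => h0 y (gap a (left_mem_Icc.2 hab) y hy hw (init y hy hw))) hz hzr
  by_contra h3
  rw [h1 z (not_le.1 h3)] at h2
  exact one_ne_zero h2

variable {W : E3 → ℝ} {Q : E3 ≃ₗᵢ[ℝ] E3} {R η s : ℝ} {u : E2 → ℝ} {ξ : E2}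

/-- the angle with the tangent plane of the sheet, in terms of the height -/
lemma loc_angle (h : P218UG.Loc W Q p R H η u) (hW : IsSurf W) (hη1 : η ≤ 1) (hξ : ‖ξ‖ < R)
    (hs : |s| ≤ H) (hx : W (pt Q p ξ s) = 0) (y : E3) :
    |⟪y - p, nQ Q⟫| - |s| - η * ‖y - pt Q p ξ s‖
      ≤ 2 * |⟪y - pt Q p ξ s, gradient W (pt Q p ξ s)⟫| := by
  obtain ⟨ξ', s', rfl⟩ : ∃ ξ' s', y = pt Q p ξ' s' := ⟨_, _, (pt_hor Q p y).symm⟩
  obtain ⟨b1, b2, b3⟩ := h.diff ξ hξ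
  obtain ⟨σ, hσ, hg⟩ := unit_normal (surf_unit hW b3.self_of_nhds)
    (inner_grad_tangent (surf_diff hW _) b1 b3)
  rw [← h.uniq ξ s hξ hs hx] at hg
  have hσ1 : |σ| = 1 := by rcases hσ with rfl | rfl <;> norm_num
  have hV : 0 < √(1 + ‖gradient u ξ‖ ^ 2) := Real.sqrt_pos.2 (by positivity)
  have hV2 : √(1 + ‖gradient u ξ‖ ^ 2) ≤ 2 :=
    Real.sqrt_le_iff.2 ⟨by norm_num, by nlinarith [norm_nonneg (gradient u ξ)]⟩
  have a1 := fst_le_norm_lin (Q := Q) (ξ' - ξ, s' - s)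
  rw [inner_pt, hg, real_inner_smul_right, pt_sub_pt, inner_lin, abs_mul, abs_div, hσ1,
    abs_of_pos hV]
  simp only [inner_neg_right, mul_one] at a1 ⊢
  have a3 := abs_real_inner_le_norm (ξ' - ξ) (gradient u ξ)
  have a4 := mul_le_mul a1 b2 (norm_nonneg _) (norm_nonneg _)
  have a5 := abs_add_three (-⟪ξ' - ξ, gradient u ξ⟫ + (s' - s)) ⟪ξ' - ξ, gradient u ξ⟫ s
  rw [show -⟪ξ' - ξ, gradient u ξ⟫ + (s' - s) + ⟪ξ' - ξ, gradient u ξ⟫ + s = s' by ring] at a5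
  have a6 : 1 ≤ 2 * (1 / √(1 + ‖gradient u ξ‖ ^ 2)) := by
    rw [mul_one_div, le_div_iff₀ hV]
    linarith
  nlinarith [abs_nonneg (-⟪ξ' - ξ, gradient u ξ⟫ + (s' - s))]

/-- the structure of the flow near a point with one sheet -/
structure Str (w : ℝ → E3 → ℝ) (I Z : Set ℝ) (Q : E3 ≃ₗᵢ[ℝ] E3) (p : E3) (R q η T t : ℝ)
    (u : ℝ → E2 → ℝ) : Prop where
  mem : Icc (t - T) t ⊆ I
  loc : ∀ t' ∈ Icc (t - T) t, t' ∉ Z → P218UG.Loc (w t') Q p R (q / 5) η (u t')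
  gap : ∀ t' ∈ Icc (t - T) t, ∀ (ξ : E2) (s : ℝ), ‖ξ‖ ≤ 3 * R → |s| ≤ q / 5 →
    w t' (pt Q p ξ s) = 0 → |s| ≤ q / 200

/-- a point above the gap is seen from nearby points at earlier times -/
theorem Str.av (hC : CalcW) (h : IsW0 w I Z A) {q T d θ t' r' : ℝ} {u : ℝ → E2 → ℝ} {x' : E3}
    (hS : Str w I Z Q p R q η T t u) (hq : 0 < q) (hR : 0 < R) (hη0 : 0 ≤ η) (hη1 : η ≤ 1)
    (hηR : η * R ≤ q / 20) (hθ0 : 0 ≤ θ) (hθ1 : θ ≤ 1 / 10) (hθR : θ * R ≤ q / 200)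
    (hd : |d| ≤ q / 20) (hz : w t z = 0) (hzR : ‖z - pt Q p 0 d‖ ≤ R)
    (hzH : q / 5 < |⟪z - p, nQ Q⟫|) (ht : t' ∈ Icc (t - T) t) (hT : T ≤ R ^ 2 / 4)
    (hx1 : ‖x' - pt Q p 0 d‖ ≤ q / 20) (hx2 : ‖x' - pt Q p 0 d‖ ≤ R / 2) (hx : w t' x' = 0)
    (hr : 0 < r') (hr' : ‖x' - z‖ ^ 2 + 4 * (t - t') < r' ^ 2) : ¬Reg (w t') θ x' r' := by
  intro hreg
  have hI : t' ∈ I \ Z := ⟨hS.mem ht, h.notMem hx⟩
  obtain ⟨r, hr0, hr1, hr2, hr3⟩ : ∃ r, 0 < r ∧ r ≤ r' ∧ r ≤ 2 * R ∧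
      ‖z - x'‖ ^ 2 + 4 * (t - t') < r ^ 2 := by
    rw [norm_sub_rev] at hr'
    rcases le_total r' (2 * R) with h1 | h1
    · exact ⟨r', hr, le_rfl, h1, hr'⟩
    refine ⟨2 * R, by positivity, h1, le_rfl, ?_⟩
    have a1 := norm_sub_le_norm_sub_add_norm_sub z (pt Q p 0 d) x'
    rw [norm_sub_rev (pt Q p 0 d)] at a1
    have a2 := pow_le_pow_left₀ (norm_nonneg _) (by linarith : ‖z - x'‖ ≤ 3 / 2 * R) 2
    linarith [ht.1, sq_pos_of_pos hR]
  refine hzH.not_ge (avoid_gap hC h hI (hS.mem (right_mem_Icc.2 (ht.1.trans ht.2))) ht.2 hr0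
    (by positivity) (fun s hs y hy h0 h1 => ?_) (fun y hy h0 => ?_) hz hr3)
  · obtain ⟨ξ, s', rfl, a1, -⟩ := exists_coord (Q := Q) (p := p) 0 d y
    have a2 := norm_sub_le_norm_sub_add_norm_sub (pt Q p ξ s') x' (pt Q p 0 d)
    have a3 := mem_ball_iff_norm.1 hy
    rw [norm_zero] at a1
    rw [inner_pt] at h1 ⊢
    linarith [hS.gap s ⟨ht.1.trans hs.1, hs.2⟩ ξ s' (by linarith) h1 h0]
  obtain ⟨ξ, s, rfl, a1, a2⟩ := exists_coord (Q := Q) (p := p) 0 d x'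
  rw [norm_zero] at a1
  have a3 := hS.gap t' ht ξ s (by linarith) (by linarith) hx
  have a4 := loc_angle (hS.loc t' ht hI.2) (h.slice hI.1) hη1 (by linarith) (by linarith) hx y
  have a5 := mem_ball_iff_norm.1 hy
  obtain ⟨a, b, c1, -, c2⟩ := h.loc hI
  by_contra a6
  refine P218UO.not_reg c2.toIsFlow c1 hx h0 hθ0 hθ1 (a5.trans_le hr1) ?_ hreg
  have a7 := mul_le_mul_of_nonneg_left (a5.le.trans hr2) hη0
  have a8 := mul_le_mul_of_nonneg_left (a5.le.trans hr2) hθ0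
  linarith [not_le.1 a6]

end Vale.Agent.P218WS
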