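import Vale.Agent.P218WS.Avoid

/-! The structure of a weak flow at quiet points. -/

open MeasureTheory Set Filter Topology Metric
open scoped ENNReal RealInnerProductSpace ContDiff

namespace Vale.Agent.P218WS

open P218UA P218UM P218UG P218WA

variable {w : ℝ → E3 → ℝ} {I Z : Set ℝ} {A : ℝ} {x z n : E3} {t r q ρ L R ε η : ℝ} {k : ℕ}
  {a : Fin k → ℝ}

/-- one plane near `x` gives one graph -/
lemma qs_str (hM : MonoW) (h : IsW0 w I Z A) (hn : ‖n‖ = 1) (hρ : 0 < ρ) (hL : 0 < L)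
    (hR : 0 < R) (hε : ε ≤ 1 / 2)
    (hS : ∀ (Q : E3 ≃ₗᵢ[ℝ] E3) (p : E3), GdLe w Q p R ρ t ε →
      SheetOnW w Z (Icc (t - ρ ^ 2 / 4) t) Q p R ρ η)
    (hG : ∀ (y : E3) (ρ' : ℝ) (S : Finset (Fin k)), ρ' ∈ Icc (ρ / 2) ρ → ‖y - z‖ ≤ 5 * r →
      (∀ i ∉ S, L * ρ ≤ |ht z r n (a i) y|) → gd (ar (w (t - ρ ^ 2))) y ρ'
        ≤ ∑ i ∈ S, Real.exp (-ht z r n (a i) y ^ 2 / (4 * ρ' ^ 2)) + ε)
    (hone : ∀ i j, i ≠ j → |ht z r n (a i) x| ≤ q / 4 → q / 4 < |ht z r n (a j) x|)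
    (hq : (L + 10) * ρ ≤ q / 100) (hqr : q ≤ r) (hRr : R ≤ r) (hxz : ‖x - z‖ ≤ r)
    (hI : Icc (t - ρ ^ 2) t ⊆ I) (hZ : t - ρ ^ 2 ∉ Z) (hx : w t x = 0) :
    ∃ (Q : E3 ≃ₗᵢ[ℝ] E3) (p : E3) (d : ℝ) (u : ℝ → E2 → ℝ), x = pt Q p 0 d ∧ |d| ≤ q / 20 ∧
      Str w I Z Q p R q η (ρ ^ 2 / 4) t u := by
  have hρ2 : 0 < ρ ^ 2 := by positivity
  have hLρ : 0 < L * ρ := by positivity
  have hclear : ∀ t' ∈ Icc (t - ρ ^ 2 / 4) t, ∀ y, w t' y = 0 → ∃ ρ' ∈ Icc (ρ / 2) ρ,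
      1 ≤ gd (ar (w (t - ρ ^ 2))) y ρ' := fun t' ht' y hy =>
    ⟨_, sqrt_mem hρ ⟨by linarith [ht'.1], ht'.2⟩, hM.clear w I Z A h t'
      (hI ⟨by linarith [ht'.1], ht'.2⟩) y hy _ ⟨hI (left_mem_Icc.2 (by linarith)), hZ⟩
      (by linarith [ht'.1])⟩
  have htT : t ∈ Icc (t - ρ ^ 2 / 4) t := right_mem_Icc.2 (by linarith)
  obtain ⟨i, hi⟩ : ∃ i, |ht z r n (a i) x| < L * ρ := by
    by_contra hne
    push Not at hne
    obtain ⟨ρ', h1, h2⟩ := hclear t htT x hx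
    have h3 := hG x ρ' ∅ h1 (by linarith) fun i _ => hne i
    rw [Finset.sum_empty] at h3
    linarith
  obtain ⟨Q, rfl⟩ := exists_frame hn
  obtain ⟨d, hd⟩ : ∃ d, d = ht z r (nQ Q) (a i) x := ⟨_, rfl⟩
  rw [← hd] at hi
  obtain ⟨p, hp⟩ : ∃ p, p = x - d • nQ Q := ⟨_, rfl⟩
  have hxp : x = pt Q p 0 d := by
    rw [pt_add, pt_eq, show ((0 : E2), (0 : ℝ)) = 0 from rfl, map_zero, add_zero, hp,
      sub_add_cancel]
  have h1 : ∀ (ξ : E2) (s ρ' : ℝ), ‖ξ‖ ≤ 3 * r → |s| ≤ q / 5 → ρ' ∈ Icc (ρ / 2) ρ →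
      gd (ar (w (t - ρ ^ 2))) (pt Q p ξ s) ρ' ≤ Real.exp (-s ^ 2 / (4 * ρ' ^ 2)) + ε := by
    intro ξ s ρ' hξ hs hρ'
    have a1 : ‖pt Q p ξ s - x‖ ≤ ‖ξ‖ + (|s| + |d|) := by
      rw [hxp, pt_sub_pt]
      refine (norm_lin_le _).trans ?_
      simp only [sub_zero]
      linarith [abs_sub s d]
    have a2 := norm_sub_le_norm_sub_add_norm_sub (pt Q p ξ s) x z
    have a3 := hG (pt Q p ξ s) ρ' {i} hρ' (by linarith) fun j hj => by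
      have b1 := hone i j (fun e => hj (e ▸ Finset.mem_singleton_self i)) (by rw [← hd]; linarith)
      have b2 := abs_add_three (ht z r (nQ Q) (a j) x - d + s) d (-s)
      rw [abs_neg, show ht z r (nQ Q) (a j) x - d + s + d + -s = ht z r (nQ Q) (a j) x by ring]
        at b2
      rw [hp, ht_pt]
      linarith
    rwa [Finset.sum_singleton, hp, ht_pt, ← hd, sub_self, zero_add, ← hp] at a3
  have h2 : ∀ t' ∈ Icc (t - ρ ^ 2 / 4) t, ∀ (ξ : E2) (s : ℝ), ‖ξ‖ ≤ 3 * r → |s| ≤ q / 5 →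
      w t' (pt Q p ξ s) = 0 → |s| < 5 * ρ := by
    intro t' ht' ξ s hξ hs h0
    obtain ⟨ρ', a1, a2⟩ := hclear t' ht' _ h0
    have a3 := h1 ξ s ρ' hξ hs a1
    have a4 : 0 < ρ' := by linarith [a1.1]
    by_contra a5
    have a6 := pow_le_pow_left₀ (by positivity) (not_lt.1 a5) 2
    have a7 := pow_le_pow_left₀ a4.le a1.2 2
    have a8 : 2 ≤ s ^ 2 / (4 * ρ' ^ 2) := by
      rw [le_div_iff₀ (by positivity), ← sq_abs s]
      linarith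
    have a9 := Real.add_one_le_exp (s ^ 2 / (4 * ρ' ^ 2))
    have b1 : Real.exp (-s ^ 2 / (4 * ρ' ^ 2)) ≤ 1 / 3 := by
      rw [neg_div, Real.exp_neg, one_div]
      exact inv_anti₀ (by norm_num) (by linarith)
    linarith
  have h3 := h2 t htT 0 d (by simp; linarith) (by linarith) (hxp ▸ hx)
  rcases hS Q p (fun ξ s ρ' hξ hs hρ' => h1 ξ s ρ' (by linarith) (by linarith) hρ') with h4 | ⟨u, h4⟩
  · exact absurd (hxp ▸ hx) (h4 t htT 0 d (by simpa using hR) h3)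
  refine ⟨Q, p, d, u, hxp, by linarith, (Icc_subset_Icc (by linarith) le_rfl).trans hI,
    fun t' ht' hZ' => ⟨fun ξ s hξ hs h0 => ?_, fun ξ hξ => ?_⟩, fun t' ht' ξ s hξ hs h0 => ?_⟩
  · exact (((h4 t' ht').1 hZ' ξ hξ).2 s (h2 t' ht' ξ s (by linarith) hs h0)).1 h0
  · obtain ⟨b1, b2, -, -, b3, -⟩ := (h4 t' ht').2 ξ hξ
    exact ⟨(ContDiffAt.comp ξ (g := fun q : ℝ × E2 => u q.1 q.2) (f := fun ζ : E2 => (t', ζ)) b1
      (by fun_prop)).differentiableAt (by simp), b3,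
      ((Continuous.prodMk_right t').continuousAt.eventually b2).mono fun ζ b4 => b4 hZ'⟩
  · linarith [h2 t' ht' ξ s (by linarith) hs h0]

lemma Str.mono {Q : E3 ≃ₗᵢ[ℝ] E3} {p : E3} {T T' : ℝ} {u : ℝ → E2 → ℝ}
    (h : Str w I Z Q p R q η T t u) (hT : T' ≤ T) : Str w I Z Q p R q η T' t u :=
  have h1 : Icc (t - T') t ⊆ Icc (t - T) t := Icc_subset_Icc (by linarith) le_rfl
  ⟨h1.trans h.mem, fun t' ht' => h.loc t' (h1 ht'), fun t' ht' => h.gap t' (h1 ht')⟩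

/-- the first part, in terms of radii -/
lemma qs_a (hM : MonoW) (h : IsW0 w I Z A) {σ δ τ B M : ℝ}
    (hσ : 0 < σ) (hσA : A * σ ≤ 1 / 100) (hL : 0 < L) (hσL : (L + 10) ^ 2 * σ ≤ 1 / 400)
    (hq : 0 < q) (hqr : q ≤ r) (hR : 0 < R) (hRr : R ≤ r) (hε : ε ≤ 1 / 2) (hB : 0 < B)
    (hS : ∀ (Q : E3 ≃ₗᵢ[ℝ] E3) (p : E3) (ρ : ℝ), 0 < ρ → t ∈ I → t - ρ ^ 2 ∈ I \ Z →
      GdLe w Q p R ρ t ε → SheetOnW w Z (Icc (t - ρ ^ 2 / 4) t) Q p R ρ η)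
    (hG : ∀ (μ : Measure E3) (y : E3) (ρ : ℝ) (S : Finset (Fin k)), AR μ A → NP μ z r δ n a →
      0 < ρ → ρ ≤ r → ‖y - z‖ + L * ρ ≤ 10 * r → (∀ i ∉ S, L * ρ ≤ |ht z r n (a i) y|) →
      gd μ y ρ ≤ ∑ i ∈ S, Real.exp (-ht z r n (a i) y ^ 2 / (4 * ρ ^ 2))
        + ε / 2 + B * (r / ρ) ^ 3 * δ)
    (hxz : ‖x - z‖ ≤ r) (hI : Icc (t - r ^ 2) t ⊆ I)
    (hτ : τ ∈ Icc (1 / 50 * (σ * q ^ 2)) (2 * (1 / 50 * (σ * q ^ 2)))) (hZ : t - τ ∉ Z)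
    (hN : NP (ar (w (t - τ))) z r δ n a) (hδ0 : 0 ≤ δ) (hM1 : 200 * r ^ 2 ≤ M ^ 2 * (σ * q ^ 2))
    (hM0 : 0 < M) (hδ1 : 8 * M ^ 3 * δ ≤ 1 / 100) (hδ2 : B * M ^ 3 * δ ≤ ε / 2) (hx : w t x = 0)
    (h1 : (∫ s in (t - σ * q ^ 2)..t, mk (ar (w s)) x q) / (σ * q ^ 2) ≤ 27 / 20) :
    ∃ (Q : E3 ≃ₗᵢ[ℝ] E3) (p : E3) (d : ℝ) (u : ℝ → E2 → ℝ), x = pt Q p 0 d ∧ |d| ≤ q / 20 ∧
      Str w I Z Q p R q η (σ * q ^ 2 / 200) t u := by
  have hr := hN.pos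
  have hT : 0 < σ * q ^ 2 := by positivity
  have hσ1 : σ ≤ 1 := by nlinarith [h.one_le]
  obtain ⟨ρ, hρ, rfl⟩ : ∃ ρ, 0 < ρ ∧ τ = ρ ^ 2 :=
    ⟨√τ, Real.sqrt_pos.2 (by linarith [hτ.1]), (Real.sq_sqrt (by linarith [hτ.1])).symm⟩
  have a1 : (L + 10) * ρ ≤ q / 100 := by
    refine (abs_le_of_sq_le_sq' ?_ (by positivity)).2
    have b1 := mul_le_mul_of_nonneg_left hτ.2 (sq_nonneg (L + 10))
    have b2 := mul_le_mul_of_nonneg_right hσL (sq_nonneg q)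
    nlinarith
  have a2 : 0 < L * ρ := by positivity
  have a3 : ∀ ρ', ρ / 2 ≤ ρ' → r / ρ' ≤ M := fun ρ' h' => by
    have b1 : r ≤ M * (ρ / 2) := by
      refine (abs_le_of_sq_le_sq' ?_ (by positivity)).2
      have := mul_le_mul_of_nonneg_left hτ.1 (sq_nonneg M)
      nlinarith
    rw [div_le_iff₀ (by linarith)]
    nlinarith
  have a4 : ∀ ρ', ρ / 2 ≤ ρ' → (r / ρ') ^ 3 * δ ≤ M ^ 3 * δ := fun ρ' h' =>
    mul_le_mul_of_nonneg_right (pow_le_pow_left₀ (div_nonneg hr.le (by linarith)) (a3 ρ' h') 3) hδ0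
  have hI' : Icc (t - ρ ^ 2) t ⊆ I := by
    refine (Icc_subset_Icc ?_ le_rfl).trans hI
    have := pow_le_pow_left₀ hρ.le (by linarith : ρ ≤ r) 2
    linarith
  have hI0 : t - ρ ^ 2 ∈ I := hI' (left_mem_Icc.2 (by linarith [sq_nonneg ρ]))
  have hI1 : t ∈ I := hI' (right_mem_Icc.2 (by linarith [sq_nonneg ρ]))
  obtain ⟨Q, p, d, u, b1, b2, b3⟩ := qs_str (a := a) hM h hN.unit hρ hL hR hε
    (fun Q p => hS Q p ρ hρ hI1 ⟨hI0, hZ⟩) (fun y ρ' S c1 c2 c3 => by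
      have c4 : L * ρ' ≤ L * ρ := mul_le_mul_of_nonneg_left c1.2 hL.le
      have c5 := hG _ y ρ' S (h.ratio _ hI0) hN (by linarith [c1.1]) (by linarith [c1.2])
        (by linarith) fun i hi => c4.trans (c3 i hi)
      have c6 := mul_le_mul_of_nonneg_left (a4 ρ' c1.1) hB.le
      linarith)
    (fun i j hij => qs_one hM h hσ hσA hq hqr hxz hI (t' := t - ρ ^ 2)
      ⟨by linarith [sq_nonneg ρ], by linarith [hτ.2]⟩ hN (by linarith [a4 q (by linarith)]) h1 hij)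
    a1 hqr hRr hxz hI' hZ hx
  exact ⟨Q, p, d, u, b1, b2, b3.mono (by linarith [hτ.1])⟩

variable {Q : E3 ≃ₗᵢ[ℝ] E3} {p : E3} {d T θ : ℝ} {u : ℝ → E2 → ℝ}

/-- a point on another sheet, which is seen from nearby points at earlier times -/
lemma Str.far (hC : CalcW) (h : IsW0 w I Z A) (hS : Str w I Z Q p R q η T t u) (hq : 0 < q)
    (hqR : q ≤ R) (hη0 : 0 ≤ η) (hηθ : η ≤ θ) (hθ1 : θ ≤ 1 / 10) (hθR : θ * R ≤ q / 200)
    (hd : |d| ≤ q / 20) (hT0 : 0 ≤ T) (hT : T ≤ R ^ 2 / 4) (hx : w t (pt Q p 0 d) = 0)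
    (hr : r ≤ R) (hn : ¬Reg (w t) θ (pt Q p 0 d) r) : ∃ z ∈ ball (pt Q p 0 d) r, w t z = 0 ∧
      q / 20 ≤ |⟪z - pt Q p 0 d, gradient (w t) (pt Q p 0 d)⟫| ∧
      ∀ (t' : ℝ) (x' : E3) (r' : ℝ), t - T ≤ t' → t' ≤ t → ‖x' - pt Q p 0 d‖ ≤ q / 20 →
        w t' x' = 0 → 0 < r' → ‖x' - z‖ ^ 2 + 4 * (t - t') < r' ^ 2 → ¬Reg (w t') θ x' r' := by
  have ht : t ∈ Icc (t - T) t := right_mem_Icc.2 (by linarith)
  have hR : 0 < R := by linarith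
  have h1 := hS.loc t ht (h.notMem hx)
  obtain ⟨z, a1, a2, a3⟩ : ∃ z ∈ ball (pt Q p 0 d) r, w t z = 0 ∧ q / 5 < |⟪z - p, nQ Q⟫| := by
    by_contra hne
    push Not at hne
    exact hn (h1.reg hη0 hηθ hr hne)
  have a4 : ‖z - pt Q p 0 d‖ ≤ R := (mem_ball_iff_norm.1 a1).le.trans hr
  have a5 := mul_le_mul_of_nonneg_right hηθ hR.le
  have a6 := loc_angle h1 (h.slice (hS.mem ht)) (by linarith) (ξ := 0) (by simpa using hR)
    (s := d) (by linarith) hx z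
  have a7 := mul_le_mul_of_nonneg_left a4 hη0
  exact ⟨z, a1, a2, by linarith, fun t' x' r' b1 b2 b3 => hS.av hC h hq hR hη0 (by linarith)
    (by linarith) (hη0.trans hηθ) hθ1 hθR hd a2 a4 a3 ⟨b1, b2⟩ hT b3 (by linarith)⟩

/-- the mass ratio at smaller scales -/
lemma Str.avg (h : IsW0 w I Z A) (hS : Str w I Z Q p R q η T t u) (hη0 : 0 ≤ η) (hη : η ≤ 1 / 10)
    (hd : |d| ≤ q / 20) (hr : 0 < r) (hrq : 20 * r ≤ q) (hrR : r ≤ R) {T' : ℝ} (hT0 : 0 < T')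
    (hT : T' ≤ T) : (∫ s in (t - T')..t, P218UA.mk (ar (w s)) (pt Q p 0 d) r) / T' ≤ 6 / 5 := by
  have h1 := hS.mono hT
  refine avg_le h hr hT0 h1.mem fun s hs => ?_
  by_cases hZ : s ∈ Z
  · norm_num [P218UA.mk, h.ar_sing hZ]
  refine (mk_le_of_reg P218UT.cylDens (h.slice (h1.mem hs)).smooth.continuous hη hr
    ((h1.loc s hs hZ).reg hη0 le_rfl hrR fun v hv _ => ?_)).trans (by norm_num)
  obtain ⟨ξ, s', rfl, -, b3⟩ := exists_coord (Q := Q) (p := p) 0 d v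
  rw [inner_pt]
  linarith [mem_ball_iff_norm.1 hv]

/-- **[QS]** -/
theorem qsW (hC : CalcW) (hM : MonoW) (hS : SheetW) : QSW := by
  intro A hA
  obtain ⟨Y, hY⟩ : ∃ Y, Y = 20 * A - 13 := ⟨_, rfl⟩
  rw [← hY]
  have hY7 : 7 ≤ Y := by linarith
  obtain ⟨c₁, hc₁⟩ : ∃ c₁, c₁ = Real.exp (-Y - 1 / 2) / 20 := ⟨_, rfl⟩
  have hc0 : 0 < c₁ := by rw [hc₁]; positivity
  have hc1 : c₁ ≤ 1 / 10 := by
    have := Real.exp_le_one_iff.2 (by linarith : -Y - 1 / 2 ≤ 0)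
    linarith
  refine ⟨c₁, hc0, by linarith, fun θ hθ hθc => ?_⟩
  obtain ⟨ε₀, hε₀, hS⟩ := hS A θ hθ
  obtain ⟨ε, hε⟩ : ∃ ε, ε = min ε₀ (1 / 2) := ⟨_, rfl⟩
  have hε0 : 0 < ε := by rw [hε]; positivity
  obtain ⟨L, B, hL, hB, hG⟩ := exists_gd_near P218UX.monoThm P218UT.cylDens (by linarith : 0 ≤ A)
    (half_pos hε0)
  refine ⟨min (1 / (100 * A)) (1 / (400 * (L + 10) ^ 2)), by positivity, fun σ hσ hσ0 => ?_⟩
  have hσA : A * σ ≤ 1 / 100 := by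
    have := hσ0.trans (min_le_left _ _)
    rw [le_div_iff₀ (by positivity)] at this
    linarith
  have hσL : (L + 10) ^ 2 * σ ≤ 1 / 400 := by
    have := hσ0.trans (min_le_right _ _)
    rw [le_div_iff₀ (by positivity)] at this
    linarith
  have hσ1 : σ ≤ 1 / 4 := by nlinarith
  obtain ⟨E, hE⟩ : ∃ E, E = Real.exp (Y + 8) := ⟨_, rfl⟩
  have hE0 : 0 < E := hE ▸ Real.exp_pos _
  obtain ⟨M, hM'⟩ : ∃ M, M = 15 * E / σ := ⟨_, rfl⟩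
  have hM0 : 0 < M := by rw [hM']; positivity
  have hMσ : M * σ = 15 * E := by rw [hM']; field_simp
  have hEM : E ≤ M := by nlinarith
  obtain ⟨δ', hδ'⟩ : ∃ δ', δ' = min (1 / (800 * M ^ 3)) (ε / (2 * B * M ^ 3)) := ⟨_, rfl⟩
  have hδ0 : 0 < δ' := by rw [hδ']; positivity
  have hδ1 : 8 * M ^ 3 * δ' ≤ 1 / 100 := by
    have : δ' ≤ _ := hδ' ▸ min_le_left _ _
    rw [le_div_iff₀ (by positivity)] at this
    linarith
  have hδ2 : B * M ^ 3 * δ' ≤ ε / 2 := by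
    have : δ' ≤ _ := hδ' ▸ min_le_right _ _
    rw [le_div_iff₀ (by positivity)] at this
    linarith
  obtain ⟨δ, hδ, hgood⟩ := qs_good hE0 hσ hσ1 hδ0
  refine ⟨δ, hδ, σ * Real.exp (-Y) ^ 2 / 200, by positivity,
    fun w I Z h t x y ⟨z, r, hz, hr1, hr2, hI, hb⟩ => ?_⟩
  have h' := h.toIsW0
  have hr : 0 < r := (Real.exp_pos _).trans hr1
  have hxz : ‖x - z‖ ≤ r := by rw [norm_sub_rev]; exact hz.le
  have hle : ∀ y', y' ≤ y + 1 → Real.exp y' ≤ r := fun y' h' =>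
    (Real.exp_le_exp.2 h').trans hr1.le
  have hge : ∀ y', y - Y - 5 ≤ y' → r ≤ E * Real.exp y' := fun y' h' => by
    rw [hE, ← Real.exp_add]
    exact hr2.le.trans (Real.exp_le_exp.2 (by linarith))
  replace hgood := hgood w I Z A h' z r t hr hI hb
  refine ⟨fun hx h1 => ?_, fun y' h1 h2 h3 => ?_⟩
  · obtain ⟨q, hq⟩ : ∃ q, q = Real.exp (y - Y) := ⟨_, rfl⟩
    have hq0 : 0 < q := hq ▸ Real.exp_pos _
    have hq1 : q ≤ r := hq ▸ hle _ (by linarith)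
    have hq2 : r ≤ E * q := hq ▸ hge _ (by linarith)
    have hq3 : q ≤ Real.exp (y + 1 / 2) := hq ▸ Real.exp_le_exp.2 (by linarith)
    have hq4 : Real.exp (-Y) * Real.exp y = q := by rw [hq, ← Real.exp_add, neg_add_eq_sub]
    have hcR : c₁ * Real.exp (y + 1 / 2) = q / 20 := by
      rw [hc₁, hq, div_mul_eq_mul_div, ← Real.exp_add]
      congr 2
      ring
    have hR0 := Real.exp_pos (y + 1 / 2)
    rw [tbar, exp_two_mul, ← hq] at h1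
    obtain ⟨τ, hτ, hZ, n, k, a, hN⟩ := hgood (1 / 50) q le_rfl (by norm_num) hq0 hq1 hq2
    obtain ⟨Q, p, d, u, rfl, hd, hu⟩ := qs_a (η := θ) hM h' hσ hσA hL hσL hq0 hq1 hR0
      (hle _ (by linarith)) (hε ▸ min_le_right _ _) hB
      (fun Q p ρ hρ hI₀ hI₁ hg => hS w I Z h Q p _ ρ t _ hR0 hρ hI₀ hI₁ le_rfl
        (by linarith [sq_nonneg ρ]) fun ξ s r' a1 a2 a3 =>
        (hg ξ s r' a1 a2 a3).trans (add_le_add_right (hε ▸ min_le_left _ _) _))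
      (fun μ y ρ S => hG μ z n y r δ' ρ k a S) hxz hI hτ hZ hN hδ0.le (by
        have a1 := pow_le_pow_left₀ hr.le hq2 2
        have a2 : M ^ 2 * (σ * q ^ 2) = M * (15 * E) * q ^ 2 := by rw [← hMσ]; ring
        have a3 := mul_le_mul_of_nonneg_right hEM (by positivity : 0 ≤ E * q ^ 2)
        have a4 : M * σ ≤ M * (1 / 4) := mul_le_mul_of_nonneg_left hσ1 hM0.le
        have a5 := mul_le_mul_of_nonneg_right (hMσ ▸ a4) (by positivity : 0 ≤ E * q ^ 2)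
        have a6 : 0 ≤ E * E * q ^ 2 := by positivity
        linarith) hM0 hδ1 hδ2 hx h1
    have hT : 0 < σ * q ^ 2 := by positivity
    refine ⟨fun r' hr' hreg => ?_, fun y' hy' => ?_⟩
    · have a1 := mul_le_mul_of_nonneg_right hθc hR0.le
      have a2 := mul_le_mul hσ1 (pow_le_pow_left₀ hq0.le hq3 2) (sq_nonneg q) (by norm_num)
      obtain ⟨v, b1, b2, b3, b4⟩ := hu.far hC h' hq0 hq3 hθ.le le_rfl (by linarith) (by linarith)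
        hd (by positivity) (by linarith) hx hr' hreg
      refine ⟨v, b1, b2, hcR ▸ b3, fun t' x' r'' d1 d2 d3 => b4 t' x' r'' ?_ d2 (d3.trans ?_)⟩
      · rw [← hq4, mul_pow, ← exp_two_mul y]
        linarith
      · have a3 := mul_le_mul hσ1 (Real.exp_le_one_iff.2 (by linarith : -Y ≤ 0))
          (Real.exp_pos _).le (by norm_num)
        have a4 := mul_le_mul_of_nonneg_right a3 hq0.le
        rw [← hq4] at a4 hq0 ⊢
        linarith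
    · have a0 := Real.exp_pos y'
      have a1 : 20 * Real.exp y' ≤ q := by
        refine (mul_le_mul_of_nonneg_right twenty_le_exp a0.le).trans ?_
        rw [hq, ← Real.exp_add]
        exact Real.exp_le_exp.2 (by linarith)
      have b1 := mul_le_mul_of_nonneg_left (pow_le_pow_left₀ (by positivity) a1 2) hσ.le
      have b2 : 0 < σ * Real.exp y' ^ 2 := by positivity
      rw [tbar, exp_two_mul]
      exact hu.avg h' hθ.le (by linarith) hd a0 a1 (by linarith) b2 (by linarith)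
  · have hq0 := Real.exp_pos y'
    have hq2 := hge y' h1
    obtain ⟨τ, hτ, hZ, n, k, a, hN⟩ := hgood 1 _ (by norm_num) le_rfl hq0 (hle _ (by linarith)) hq2
    have e : Real.exp (y' + 2) = Real.exp 2 * Real.exp y' := by rw [← Real.exp_add, add_comm]
    rw [tbar, exp_two_mul] at h3
    rw [tbar, exp_two_mul, e]
    have a1 : r / Real.exp y' ≤ M := by
      rw [div_le_iff₀ hq0]
      exact hq2.trans (mul_le_mul_of_nonneg_right hEM hq0.le)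
    have a2 := mul_le_mul_of_nonneg_right (pow_le_pow_left₀ (by positivity) a1 3) hδ0.le
    exact qs_b hM h' hσ hσA hq0 seven_le_exp (e ▸ hle _ (by linarith)) hxz hI (t' := t - τ)
      ⟨by linarith [hτ.1], by linarith [hτ.2]⟩ hZ hN hδ0.le (by linarith) h3

end Vale.Agent.P218WS
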