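import Vale.Agent.P218WS.Stack
import Vale.Agent.P218UX.Mono

/-! The graphical form of the local regularity theorem for weak flows. -/

open MeasureTheory Set Filter Topology Metric
open scoped ENNReal RealInnerProductSpace ContDiff

namespace Vale.Agent.P218WS

open P218UA P218UG P218WA

variable {w : ℝ → E3 → ℝ} {I Z : Set ℝ} {A : ℝ} {Q : E3 ≃ₗᵢ[ℝ] E3} {p : E3}
  {R ρ t t₀ t₁ ε κ s : ℝ} {ξ : E2}

lemma gd_monoW (hM : MonoW) (h : IsW0 w I Z A) (x : E3) {t t₁ t₂ : ℝ} (h₁ : t₁ ∈ I \ Z)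
    (h₂ : t₂ ∈ I \ Z) (h12 : t₁ ≤ t₂) (h2 : t₂ < t) :
    gd (ar (w t₂)) x √(t - t₂) ≤ gd (ar (w t₁)) x √(t - t₁) :=
  (ENNReal.ofReal_le_ofReal_iff (gd_nonneg _ _ _)).1
    (le_self_add.trans (hM.mono w I Z A h x t t₁ h₁ t₂ h₂ h12 h2))

/-- the hypothesis of the theorem -/
structure GdW (w : ℝ → E3 → ℝ) (I Z : Set ℝ) (Q : E3 ≃ₗᵢ[ℝ] E3) (p : E3) (R ρ t₀ t₁ ε : ℝ) :
    Prop where
  pos : 0 < ρ
  mem₀ : t₀ ∈ I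
  mem₁ : t₁ ∈ I \ Z
  le₁ : t₀ - ρ ^ 2 ≤ t₁
  le₂ : t₁ ≤ t₀ - 9 / 10 * ρ ^ 2
  le : ∀ (ξ : E2) (s r : ℝ), ‖ξ‖ ≤ R + 10 * ρ → |s| ≤ 10 * ρ → r ∈ Icc (ρ / 2) ρ →
    gd (ar (w t₁)) (pt Q p ξ s) r ≤ Real.exp (-s ^ 2 / (4 * r ^ 2)) + ε

lemma GdW.mem (hg : GdW w I Z Q p R ρ t₀ t₁ ε) (h : IsW0 w I Z A)
    (ht : t ∈ Icc (t₀ - 13 / 20 * ρ ^ 2) t₀) : t ∈ I ∧ t₁ < t :=
  have := sq_pos_of_pos hg.pos
  ⟨h.conn.out hg.mem₁.1 hg.mem₀ ⟨by linarith [ht.1, hg.le₂], ht.2⟩, by linarith [ht.1, hg.le₂]⟩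

lemma GdW.sqrt_mem (hg : GdW w I Z Q p R ρ t₀ t₁ ε) (ht : t ∈ Icc (t₀ - 13 / 20 * ρ ^ 2) t₀) :
    √(t - t₁) ∈ Icc (ρ / 2) ρ :=
  ⟨Real.le_sqrt_of_sq_le (by linarith [ht.1, hg.le₂]),
    Real.sqrt_le_iff.2 ⟨hg.pos.le, by linarith [ht.2, hg.le₁]⟩⟩

lemma GdW.gd_le (hg : GdW w I Z Q p R ρ t₀ t₁ ε) (ht : t ∈ Icc (t₀ - 13 / 20 * ρ ^ 2) t₀)
    (hξ : ‖ξ‖ ≤ R + 10 * ρ) (hs : |s| ≤ 10 * ρ) :
    gd (ar (w t₁)) (pt Q p ξ s) √(t - t₁) ≤ 1 + ε := by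
  have h2 := hg.le ξ s _ hξ hs (hg.sqrt_mem ht)
  have h3 : Real.exp (-s ^ 2 / (4 * √(t - t₁) ^ 2)) ≤ 1 :=
    Real.exp_le_one_iff.2 (div_nonpos_of_nonpos_of_nonneg (by simp [sq_nonneg]) (by positivity))
  linarith

lemma GdW.reg (hg : GdW w I Z Q p R ρ t₀ t₁ ε) (h : IsW w I Z A) (hε : ε ≤ 1 / (|A| + 1))
    (ht : t ∈ Icc (t₀ - 13 / 20 * ρ ^ 2) t₀) (hξ : ‖ξ‖ ≤ R + 10 * ρ) (hs : |s| ≤ 10 * ρ) :
    RegAt w Z (t, pt Q p ξ s) := by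
  have h1 := h.one_le
  have h2 : 1 / (|A| + 1) < 1 / A :=
    one_div_lt_one_div_of_lt (by linarith) (by linarith [le_abs_self A])
  exact h.reg _ (hg.mem h.toIsW0 ht).1 t₁ hg.mem₁ (hg.mem h.toIsW0 ht).2
    (by linarith [hg.gd_le ht hξ hs])

lemma GdW.height (hg : GdW w I Z Q p R ρ t₀ t₁ ε) (hM : MonoW) (h : IsW0 w I Z A) (hκ : 0 < κ)
    (hε : ε ≤ 1 - Real.exp (-κ ^ 2 / 4)) (ht : t ∈ Icc (t₀ - 13 / 20 * ρ ^ 2) t₀)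
    (hξ : ‖ξ‖ ≤ R + 10 * ρ) (hs : |s| ≤ 10 * ρ) (h0 : w t (pt Q p ξ s) = 0) : |s| ≤ κ * ρ := by
  have hρ := hg.pos
  have h1 := hM.clear w I Z A h t (hg.mem h ht).1 _ h0 t₁ hg.mem₁ (hg.mem h ht).2
  have h2 := hg.sqrt_mem ht
  have h3 := hg.le ξ s _ hξ hs h2
  generalize √(t - t₁) = r at h1 h2 h3
  have hr : 0 < r := by linarith [h2.1]
  have h4 : Real.exp (-κ ^ 2 / 4) ≤ Real.exp (-s ^ 2 / (4 * r ^ 2)) := by linarith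
  rw [Real.exp_le_exp, div_le_div_iff₀ (by norm_num) (by positivity)] at h4
  have h5 : r ^ 2 ≤ ρ ^ 2 := pow_le_pow_left₀ hr.le h2.2 2
  refine abs_le_of_sq_le_sq' ?_ (by positivity) |> abs_le.2
  nlinarith [sq_nonneg κ]

/-- height, curvature and tilt of the points of the flow in the cylinder -/
def EstW (w : ℝ → E3 → ℝ) (Q : E3 ≃ₗᵢ[ℝ] E3) (p : E3) (R ρ t₀ κ : ℝ) : Prop :=
  ∀ t ∈ Icc (t₀ - 2 / 5 * ρ ^ 2) t₀, ∀ (ξ : E2) (s : ℝ), ‖ξ‖ ≤ R + 7 * ρ → |s| ≤ 7 * ρ →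
    w t (pt Q p ξ s) = 0 → |s| ≤ κ * ρ ∧ ‖hs (w t) (pt Q p ξ s)‖ ≤ κ / ρ ∧
      1 - ⟪gradient (w t) (pt Q p ξ s), nQ Q⟫ ^ 2 ≤ 4 * κ

lemma sheet_est (hM : MonoW) (hW : WhiteW) (A : ℝ) (hκ : 0 < κ) (hκ' : κ ≤ 1 / 10) :
    ∃ ε > 0, ε ≤ 1 / 2 ∧ ε ≤ 1 / (|A| + 1) ∧ ∀ w I Z, IsW w I Z A →
      ∀ (Q : E3 ≃ₗᵢ[ℝ] E3) (p : E3) (R ρ t₀ t₁ : ℝ), GdW w I Z Q p R ρ t₀ t₁ ε →
        EstW w Q p R ρ t₀ κ := by
  obtain ⟨ε₁, hε₁, hW⟩ := hW A (κ / 2) (by positivity)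
  have h0 : 0 < 1 - Real.exp (-κ ^ 2 / 4) := by
    rw [sub_pos, Real.exp_lt_one_iff]
    have := sq_pos_of_pos hκ
    linarith
  obtain ⟨ε, hε⟩ : ∃ ε, ε = min (min (1 / 2) (1 / (|A| + 1)))
    (min ε₁ (1 - Real.exp (-κ ^ 2 / 4))) := ⟨_, rfl⟩
  have e1 : ε ≤ _ := hε ▸ (min_le_left _ _).trans (min_le_right _ _)
  have e2 : ε ≤ _ := hε ▸ (min_le_right _ _).trans (min_le_left _ _)
  have e3 : ε ≤ _ := hε ▸ (min_le_right _ _).trans (min_le_right _ _)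
  refine ⟨ε, by rw [hε]; positivity, hε ▸ (min_le_left _ _).trans (min_le_left _ _), e1,
    fun w I Z h Q p R ρ t₀ t₁ hg t ht ξ s hξ hs hx => ?_⟩
  have hρ := hg.pos
  have hρ2 : 0 < ρ ^ 2 := by positivity
  have ht' : t ∈ Icc (t₀ - 13 / 20 * ρ ^ 2) t₀ := ⟨by linarith [ht.1], ht.2⟩
  have h1 : ∀ (ξ : E2) (s : ℝ), ‖ξ‖ ≤ R + 9 * ρ → |s| ≤ 9 * ρ → w t (pt Q p ξ s) = 0 →
      |s| ≤ κ * ρ ∧ ‖P218UA.hs (w t) (pt Q p ξ s)‖ ≤ κ / ρ := by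
    intro ξ s hξ hs hx
    refine ⟨hg.height hM h.toIsW0 hκ e3 ht' (by linarith) (by linarith) hx, ?_⟩
    refine (hW w I Z h.toIsW0 _ t t₁ (ρ / 2) (by positivity) (hg.mem h.toIsW0 ht').1 hg.mem₁
      (by linarith [ht.1, hg.le₂]) (fun t' ht'' y hy => ?_) hx).trans_eq (by field_simp)
    obtain ⟨ξ', s', rfl, a1, a2⟩ := exists_coord (Q := Q) (p := p) ξ s y
    have a3 := mem_closedBall_iff_norm.1 hy
    have a4 : t' ∈ Icc (t₀ - 13 / 20 * ρ ^ 2) t₀ := ⟨by linarith [ht.1, ht''.1], ht''.2.trans ht.2⟩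
    exact ⟨hg.reg h e1 a4 (by linarith) (by linarith), fun _ => by
      linarith [hg.gd_le a4 (ξ := ξ') (s := s') (by linarith) (by linarith)]⟩
  obtain ⟨h2, h3⟩ := h1 ξ s (by linarith) (by linarith) hx
  refine ⟨h2, h3, P218UG.tilt (p := p) (h.slice (hg.mem h.toIsW0 ht').1) hx norm_nQ
    hρ hκ' fun y hy hy' => ?_⟩
  obtain ⟨ξ', s', rfl, a1, a2⟩ := exists_coord (Q := Q) (p := p) ξ s y
  rw [inner_pt]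
  exact (h1 ξ' s' (by linarith) (by linarith) hy).symm

lemma EstW.near (he : EstW w Q p R ρ t₀ κ) (hρ : 0 < ρ) (ht : t ∈ Ioc (t₀ - 2 / 5 * ρ ^ 2) t₀)
    (hξ : ‖ξ‖ ≤ R) (hs : |s| ≤ 5 * ρ) : ∀ᶠ q in 𝓝 (t, pt Q p ξ s), q.1 < t → w q.1 q.2 = 0 →
      |⟪q.2 - p, nQ Q⟫| ≤ κ * ρ ∧ 1 - ⟪gradient (w q.1) q.2, nQ Q⟫ ^ 2 ≤ 4 * κ := by
  filter_upwards [prod_mem_nhds (lt_mem_nhds ht.1) (closedBall_mem_nhds (pt Q p ξ s) hρ)]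
    with ⟨t', y⟩ hq h1 h0
  obtain ⟨ξ', s', rfl, a1, a2⟩ := exists_coord (Q := Q) (p := p) ξ s y
  have a3 := mem_closedBall_iff_norm.1 hq.2
  obtain ⟨b1, -, b2⟩ := he t' ⟨le_of_lt hq.1, h1.le.trans ht.2⟩ ξ' s' (by linarith) (by linarith) h0
  exact ⟨by rwa [inner_pt], b2⟩

/-- at most one sheet -/
lemma count_static {W : E3 → ℝ} (hS : IsSurf W) (hA : 0 ≤ A) (hr : AR (ar W) A) (hρ : 0 < ρ)
    (hg : gd (ar W) p (ρ / 2) ≤ 3 / 2)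
    (he : ∀ (ξ : E2) (s : ℝ), ‖ξ‖ ≤ 6 * ρ → |s| ≤ 5 * ρ → W (pt Q p ξ s) = 0 →
      |s| ≤ ρ / 10 ∧ ⟪gradient W (pt Q p ξ s), nQ Q⟫ ≠ 0) :
    {s | s ∈ Icc (-(5 * ρ)) (5 * ρ) ∧ W (pt Q p 0 s) = 0}.ncard ≤ 1 := by
  have hb : ∀ ξ ∈ ball (0 : E2) (6 * ρ), ‖ξ‖ ≤ 6 * ρ := fun ξ hξ => (mem_ball_zero_iff.1 hξ).le
  have hne : ∀ ξ ∈ ball (0 : E2) (6 * ρ), ∀ s, |s| = 5 * ρ → W (pt Q p ξ s) ≠ 0 :=
    fun ξ hξ s hs h0 => by linarith [(he ξ s (hb ξ hξ) hs.le h0).1]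
  have hcd : ContDiff ℝ ∞ fun z : E2 × ℝ => W (pt Q p z.1 z.2) := hS.smooth.comp contDiff_pt
  obtain ⟨m, u, hu, hz⟩ := exists_stack (f := fun z : E2 × ℝ => W (pt Q p z.1 z.2)) (n := ∞)
    (by simp) (U := ball 0 (6 * ρ)) isOpen_ball (convex_ball _ _).isPreconnected
    (a := -(5 * ρ)) (b := 5 * ρ) (fun ξ _ s _ => hcd.contDiffAt)
    (fun ξ hξ => hne ξ hξ _ (by rw [abs_neg, abs_of_pos (by positivity)]))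
    (fun ξ hξ => hne ξ hξ _ (abs_of_pos (by positivity)))
    (fun ξ hξ s hs h0 => by
      have a1 := (HasFDerivAt.comp_hasDerivAt (f := fun s : ℝ => (ξ, s)) s
        ((hcd.differentiable (by simp)) _).hasFDerivAt
        ((hasDerivAt_const s ξ).prodMk (hasDerivAt_id s))).unique
        (hasDerivAt_vert (Q := Q) (p := p) hS ξ s)
      rw [a1]
      exact (he ξ s (hb ξ hξ) (abs_le.2 hs) h0).2)
  have h00 : (0 : E2) ∈ ball (0 : E2) (6 * ρ) := mem_ball_self (by positivity)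
  have e : {s | s ∈ Icc (-(5 * ρ)) (5 * ρ) ∧ W (pt Q p 0 s) = 0} = range fun j => u j 0 :=
    Set.ext (hz 0 h00).2
  rw [e, ncard_range_of_injective (hz 0 h00).1.injective, Nat.card_eq_fintype_card,
    Fintype.card_fin]
  by_contra hm
  have hm' : 1 < m := by omega
  have hu1 : ∀ j, ContDiffOn ℝ 1 (u j) (ball 0 (6 * ρ)) := fun j ξ hξ =>
    ((hu j ξ hξ).of_le (by norm_cast)).contDiffWithinAt
  have hu2 : ∀ j, ∀ ξ ∈ ball (0 : E2) (6 * ρ),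
      |u j ξ| ≤ ρ / 10 ∧ W (pt Q p ξ (u j ξ)) = 0 := fun j ξ hξ => by
    obtain ⟨a1, a2⟩ := ((hz ξ hξ).2 _).2 ⟨j, rfl⟩
    exact ⟨(he ξ _ (hb ξ hξ) (abs_le.2 a1) a2).1, a2⟩
  have h2 := gd_two_graphs (Q := Q) (p := p) hρ (hu1 ⟨0, by omega⟩) (hu1 ⟨1, hm'⟩)
    (fun ξ hξ => ⟨(hu2 _ ξ hξ).1, (hu2 _ ξ hξ).1, ((hz ξ hξ).1 (by simp [Fin.lt_def])).ne,
      (hu2 _ ξ hξ).2, (hu2 _ ξ hξ).2⟩)
    (integrable_gauss P218UX.monoThm hA hr p (by positivity))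
  linarith

/-- the properties of the graph at all times follow from those at the regular times -/
lemma graph_closed (hZ : volume Z = 0) {u : ℝ → E2 → ℝ} {a b c : ℝ}
    (hu : ContDiffAt ℝ ∞ (fun q : ℝ × E2 => u q.1 q.2) (t, ξ))
    (h : ∀ᶠ s in 𝓝 t, s < t → s ∉ Z → deriv (fun s => u s ξ) s = gmc (u s) ξ ∧ |u s ξ| ≤ a ∧
      ‖gradient (u s) ξ‖ ≤ b ∧ ‖fderiv ℝ (gradient (u s)) ξ‖ ≤ c) :
    deriv (fun s => u s ξ) t = gmc (u t) ξ ∧ |u t ξ| ≤ a ∧ ‖gradient (u t) ξ‖ ≤ b ∧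
      ‖fderiv ℝ (gradient (u t)) ξ‖ ≤ c := by
  have h0 : ContinuousAt (fun s : ℝ => (s, ξ)) t := by fun_prop
  have h1 : ContDiffAt ℝ ∞ (fun s => u s ξ) t :=
    ContDiffAt.comp t (g := fun q : ℝ × E2 => u q.1 q.2) (f := fun s : ℝ => (s, ξ)) hu (by fun_prop)
  have h2 : ContinuousAt (fun s => gradient (u s) ξ) t :=
    (contDiffAt_grad (m := ∞) le_rfl hu).continuousAt.comp (f := fun s => (s, ξ)) h0
  have h3 : ContinuousAt (fun s => fderiv ℝ (gradient (u s)) ξ) t :=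
    (contDiffAt_hess (m := ∞) le_rfl hu).continuousAt.comp (f := fun s => (s, ξ)) h0
  have h4 : ContinuousAt (fun s => P218.H63.lap (u s) ξ) t :=
    (contDiffAt_lap (m := ∞) le_rfl hu).continuousAt.comp (f := fun s => (s, ξ)) h0
  have h5 : ContinuousAt (fun s => deriv (fun s => u s ξ) s - gmc (u s) ξ) t :=
    ((h1.continuousAt_fderiv (by simp)).clm_apply continuousAt_const).sub
      (h4.sub (((h3.clm_apply h2).inner h2).div (continuousAt_const.add (h2.norm.pow 2))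
        (by positivity)))
  have h6 := mem_of_left hZ (isClosed_singleton (x := 0)) h5
    (h.mono fun s a1 a2 a3 => sub_eq_zero.2 (a1 a2 a3).1)
  exact ⟨sub_eq_zero.1 h6,
    mem_of_left hZ isClosed_Iic h1.continuousAt.abs (h.mono fun s a1 a2 a3 => (a1 a2 a3).2.1),
    mem_of_left hZ isClosed_Iic h2.norm (h.mono fun s a1 a2 a3 => (a1 a2 a3).2.2.1),
    mem_of_left hZ isClosed_Iic h3.norm (h.mono fun s a1 a2 a3 => (a1 a2 a3).2.2.2)⟩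

/-- the closure of the track in a frame -/
def TkF (w : ℝ → E3 → ℝ) (Q : E3 ≃ₗᵢ[ℝ] E3) (p : E3) : Set ((ℝ × E2) × ℝ) :=
  {z | (z.1.1, pt Q p z.1.2 z.2) ∈ Tk w}

lemma mem_tkF (h : IsW0 w I Z A) {q : ℝ × E2} (hq : q.1 ∈ I \ Z) (s : ℝ) :
    (q, s) ∈ TkF w Q p ↔ w q.1 (pt Q p q.2 s) = 0 :=
  mem_tk_reg h (q := (q.1, pt Q p q.2 s)) hq

lemma sub_win (hρ : 0 < ρ) (ht : t ∈ Ioc (t₀ - 2 / 5 * ρ ^ 2) t₀) :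
    t ∈ Icc (t₀ - 13 / 20 * ρ ^ 2) t₀ := ⟨by linarith [ht.1, sq_pos_of_pos hρ], ht.2⟩

lemma tk_height (h : IsW w I Z A) (hg : GdW w I Z Q p R ρ t₀ t₁ ε) (hεA : ε ≤ 1 / (|A| + 1))
    (he : EstW w Q p R ρ t₀ κ) (ht : t ∈ Ioc (t₀ - 2 / 5 * ρ ^ 2) t₀) (hξ : ‖ξ‖ ≤ R)
    (hs : |s| ≤ 5 * ρ) (h0 : ((t, ξ), s) ∈ TkF w Q p) : |s| ≤ κ * ρ := by
  have hρ := hg.pos
  have a1 : ContinuousAt (fun q' : ℝ × E3 => |⟪q'.2 - p, nQ Q⟫|) (t, pt Q p ξ s) := by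
    fun_prop
  have a2 := isClosed_Iic.mem_of_frequently_of_tendsto (((tk_freq h.toIsW0 (hg.reg h hεA
    (sub_win hρ ht) (by linarith) (by linarith)) h0).and_eventually (he.near hρ ht hξ hs)).mono
    fun q' a2 => (a2.2 a2.1.1 a2.1.2).1) a1
  simpa only [mem_Iic, inner_pt] using a2

lemma sheet_tk (hM : MonoW) (h : IsW w I Z A) (hg : GdW w I Z Q p R ρ t₀ t₁ ε) (hR : 0 < R)
    (hε : ε ≤ 1 / 2) (hεA : ε ≤ 1 / (|A| + 1)) (he : EstW w Q p R ρ t₀ κ) (hκ : κ ≤ 1 / 10) :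
    (∀ q ∈ Ioc (t₀ - 2 / 5 * ρ ^ 2) t₀ ×ˢ ball (0 : E2) R, ∀ s ∈ Icc (-(5 * ρ)) (5 * ρ),
      (q, s) ∉ TkF w Q p) ∨ ∃ u : ℝ × E2 → ℝ,
      ∀ q ∈ Ioc (t₀ - 2 / 5 * ρ ^ 2) t₀ ×ˢ ball (0 : E2) R, ContDiffAt ℝ ∞ u q ∧
        ∀ᶠ q' in 𝓝 q, ∀ s, (s ∈ Icc (-(5 * ρ)) (5 * ρ) ∧ (q', s) ∈ TkF w Q p) ↔ u q' = s := by
  have hρ := hg.pos
  have h' := h.toIsW0
  have hρ2 : 0 < ρ ^ 2 := by positivity
  have c3 : ∀ q ∈ Ioc (t₀ - 2 / 5 * ρ ^ 2) t₀ ×ˢ ball (0 : E2) R, ∀ s, |s| = 5 * ρ →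
      (q, s) ∉ TkF w Q p := fun q hq s hs h0 => by
    have := tk_height h hg hεA he hq.1 (mem_ball_zero_iff.1 hq.2).le hs.le h0
    nlinarith
  obtain ⟨t₂, ht₂, hZ₂⟩ := exists_notMem h.null
    (by linarith : t₀ - 2 / 5 * ρ ^ 2 < t₀ - (ρ / 2) ^ 2)
  have ht₃ : t₂ ∈ Ioc (t₀ - 2 / 5 * ρ ^ 2) t₀ := ⟨ht₂.1, by linarith [ht₂.2]⟩
  have ht₄ := hg.mem h' (sub_win hρ ht₃)
  refine empty_or_graph (isPreconnected_Ioc.prod (convex_ball _ _).isPreconnected)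
    (fun q hq s hs => ?_) (fun q hq => c3 q hq _ (by rw [abs_neg, abs_of_pos (by positivity)]))
    (fun q hq => c3 q hq _ (abs_of_pos (by positivity))) (p₀ := (t₂, 0)) ⟨ht₃, mem_ball_self hR⟩ ?_
  · have a1 := (mem_ball_zero_iff.1 hq.2).le
    have a2 := abs_le.2 hs
    exact locGr_tk h' (c := 1 / 2) (by norm_num)
      (hg.reg h hεA (sub_win hρ hq.1) (by linarith) (by linarith))
      ((he.near hρ hq.1 a1 a2).mono fun q' a1 a2 a3 => by linarith [(a1 a2 a3).2])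
  simp only [mem_tkF h' (q := (t₂, 0)) ⟨ht₄.1, hZ₂⟩]
  refine count_static (h.slice ht₄.1) (by linarith [h.one_le]) (h.ratio _ ht₄.1) hρ ?_
    fun ξ s a1 a2 a3 => ?_
  · have a1 := gd_monoW hM h' (pt Q p 0 0) (t := t₂ + (ρ / 2) ^ 2) hg.mem₁ ⟨ht₄.1, hZ₂⟩ ht₄.2.le
      (by linarith)
    have a2 := hg.gd_le (t := t₂ + (ρ / 2) ^ 2) ⟨by linarith [ht₂.1], by linarith [ht₂.2]⟩
      (ξ := 0) (s := 0) (by simp; positivity) (by simp; positivity)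
    rw [add_sub_cancel_left, Real.sqrt_sq (by positivity)] at a1
    rw [pt_eq, show ((0 : E2), (0 : ℝ)) = 0 from rfl, map_zero, add_zero] at a1 a2
    linarith
  · obtain ⟨b1, -, b2⟩ := he t₂ (Ioc_subset_Icc_self ht₃) ξ s (by linarith) (by linarith) a3
    refine ⟨by nlinarith, fun b3 => ?_⟩
    rw [b3] at b2
    linarith

/-- the graph at a regular time -/
lemma sheet_reg (h : IsW0 w I Z A) (he : EstW w Q p R ρ t₀ κ) (hρ : 0 < ρ) {η : ℝ} (hη : 0 < η)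
    (hκ1 : κ ≤ 1 / 10) (hκ2 : κ ≤ η ^ 2 / 8) (hκ3 : κ ≤ η / 3) {u : ℝ → E2 → ℝ}
    (ht : t ∈ Icc (t₀ - 2 / 5 * ρ ^ 2) t₀) (hI : t ∈ I \ Z) (hξ : ‖ξ‖ ≤ R) (hs : |u t ξ| ≤ 5 * ρ)
    (hu : ContDiffAt ℝ ∞ (fun q : ℝ × E2 => u q.1 q.2) (t, ξ))
    (h0 : ∀ᶠ q : ℝ × E2 in 𝓝 (t, ξ), q.1 ∉ Z → w q.1 (pt Q p q.2 (u q.1 q.2)) = 0) :
    deriv (fun s => u s ξ) t = gmc (u t) ξ ∧ |u t ξ| ≤ η * ρ ∧ ‖gradient (u t) ξ‖ ≤ η ∧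
      ‖fderiv ℝ (gradient (u t)) ξ‖ ≤ η / ρ := by
  have a6 : ∀ᶠ q : ℝ × E2 in 𝓝 (t, ξ), w q.1 (pt Q p q.2 (u q.1 q.2)) = 0 := by
    filter_upwards [h0, continuousAt_fst.eventually (h.closed.isOpen_compl.mem_nhds hI.2)]
      with q b1 b2 using b1 b2
  have a7 : ContDiffAt ℝ 2 (u t) ξ :=
    (ContDiffAt.comp ξ (g := fun q : ℝ × E2 => u q.1 q.2) (f := fun ζ : E2 => (t, ζ)) hu
      (by fun_prop)).of_le (by norm_cast)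
  obtain ⟨b1, b2, b3⟩ := he t ht ξ _ (by linarith) (hs.trans (by linarith)) a6.self_of_nhds
  obtain ⟨b4, b5⟩ := graph_bounds (h.slice hI.1) a7
    ((Continuous.prodMk_right t).continuousAt.eventually a6) (κ := κ) (by linarith) b3 b2
  obtain ⟨a, b, d1, -, d2⟩ := h.loc hI
  refine ⟨graph_eqn d2.toIsFlow d1 (hu.of_le (by norm_cast)) a6, b1.trans (by nlinarith),
    (abs_le_of_sq_le_sq' (by linarith) hη.le).2, b5.trans ?_⟩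
  rw [← mul_div_assoc]
  exact div_le_div_of_nonneg_right (by linarith) hρ.le

/-- **[SHEET]** -/
theorem sheetW (hM : MonoW) (hW : WhiteW) : SheetW := by
  intro A η hη
  obtain ⟨κ, hκ⟩ : ∃ κ, κ = min (1 / 10) (min (η ^ 2 / 8) (η / 3)) := ⟨_, rfl⟩
  have hκ0 : 0 < κ := by rw [hκ]; positivity
  have hκ1 : κ ≤ 1 / 10 := hκ ▸ min_le_left _ _
  have hκ2 : κ ≤ η ^ 2 / 8 := hκ ▸ (min_le_right _ _).trans (min_le_left _ _)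
  have hκ3 : κ ≤ η / 3 := hκ ▸ (min_le_right _ _).trans (min_le_right _ _)
  obtain ⟨ε, hε, hε', hεA, hest⟩ := sheet_est hM hW A hκ0 hκ1
  refine ⟨ε, hε, fun w I Z h Q p R ρ t₀ t₁ hR hρ g1 g2 g3 g4 g5 => ?_⟩
  have hg : GdW w I Z Q p R ρ t₀ t₁ ε := ⟨hρ, g1, g2, g3, g4, g5⟩
  have he := hest w I Z h Q p R ρ t₀ t₁ hg
  have h' := h.toIsW0
  have hT : ∀ t ∈ Icc (t₀ - ρ ^ 2 / 4) t₀, t ∈ Ioc (t₀ - 2 / 5 * ρ ^ 2) t₀ := fun t ht =>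
    ⟨by linarith [ht.1, sq_pos_of_pos hρ], ht.2⟩
  have hI : ∀ t ∈ Ioc (t₀ - 2 / 5 * ρ ^ 2) t₀, t ∈ I := fun t ht => (hg.mem h' (sub_win hρ ht)).1
  rcases sheet_tk hM h hg hR hε' hεA he hκ1 with h1 | ⟨u, hu⟩
  · exact Or.inl fun t ht ξ s hξ hs h0 => h1 (t, ξ) ⟨hT t ht, mem_ball_zero_iff.2 hξ⟩ s
      (abs_le.1 hs.le) (subset_closure h0)
  replace hu := fun t ht (ξ : E2) (hξ : ‖ξ‖ < R) => hu (t, ξ) ⟨ht, mem_ball_zero_iff.2 hξ⟩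
  have k1 : ∀ t ∈ Ioc (t₀ - 2 / 5 * ρ ^ 2) t₀, ∀ ξ : E2, ‖ξ‖ < R →
      ∀ᶠ q : ℝ × E2 in 𝓝 (t, ξ), q.1 ∉ Z → w q.1 (pt Q p q.2 (u (q.1, q.2))) = 0 := by
    intro t ht ξ hξ
    filter_upwards [(hu t ht ξ hξ).2, continuousAt_fst.eventually (h.isOpen.mem_nhds (hI t ht))]
      with q a1 a2 a3
    exact (mem_tkF h' ⟨a2, a3⟩ _).1 ((a1 _).2 rfl).2
  refine Or.inr ⟨fun t ξ => u (t, ξ), fun t ht => ⟨fun hZ ξ hξ => ?_, fun ξ hξ => ?_⟩⟩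
  · have a1 := (hu t (hT t ht) ξ hξ).2.self_of_nhds
    have a2 := (a1 _).2 rfl
    refine ⟨(tk_height h hg hεA he (hT t ht) hξ.le (abs_le.2 a2.1) a2.2).trans_lt (by nlinarith),
      fun s hs => ?_⟩
    rw [eq_comm, ← a1 s, mem_tkF h' (q := (t, ξ)) ⟨hI t (hT t ht), hZ⟩]
    exact ⟨fun a3 => ⟨abs_le.1 hs.le, a3⟩, fun a3 => a3.2⟩
  refine ⟨(hu t (hT t ht) ξ hξ).1, k1 t (hT t ht) ξ hξ,
    graph_closed (u := fun t ξ => u (t, ξ)) h.null (hu t (hT t ht) ξ hξ).1 ?_⟩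
  filter_upwards [lt_mem_nhds (hT t ht).1] with t' a1 a2 hZ
  have a3 : t' ∈ Ioc (t₀ - 2 / 5 * ρ ^ 2) t₀ := ⟨a1, a2.le.trans ht.2⟩
  exact sheet_reg (u := fun t ξ => u (t, ξ)) h' he hρ hη hκ1 hκ2 hκ3 (Ioc_subset_Icc_self a3)
    ⟨hI t' a3, hZ⟩ hξ.le (abs_le.2 (((hu t' a3 ξ hξ).2.self_of_nhds _).2 rfl).1)
    (hu t' a3 ξ hξ).1 (k1 t' a3 ξ hξ)

end Vale.Agent.P218WS
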