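import Vale.Agent.P218UG.Sheet
import Vale.Agent.P218WA.Props

/-! Sets which are locally graphs; the closure of the track of a weak flow. -/

open MeasureTheory Set Filter Topology Metric
open scoped RealInnerProductSpace ContDiff

namespace Vale.Agent.P218WS

section stack

variable {P : Type*} [NormedAddCommGroup P] [NormedSpace ℝ P]
variable {n : WithTop ℕ∞} {S : Set (P × ℝ)}

/-- near `z` the set `S` is empty or a graph through `z` -/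
def LocGr (n : WithTop ℕ∞) (S : Set (P × ℝ)) (z : P × ℝ) : Prop :=
  (∀ᶠ v in 𝓝 z, v ∉ S) ∨
    ∃ φ : P → ℝ, ContDiffAt ℝ n φ z.1 ∧ φ z.1 = z.2 ∧ ∀ᶠ v in 𝓝 z, v ∈ S ↔ φ v.1 = v.2

lemma stack_local {p : P} {a b : ℝ} (hf : ∀ s ∈ Icc a b, LocGr n S (p, s)) (ha : (p, a) ∉ S)
    (hb : (p, b) ∉ S) : ∃ (m : ℕ) (φ : Fin m → P → ℝ), (∀ j, ContDiffAt ℝ n (φ j) p) ∧
      ∀ᶠ q in 𝓝 p, StrictMono (fun j => φ j q) ∧
        ∀ s, (s ∈ Icc a b ∧ (q, s) ∈ S) ↔ ∃ j, φ j q = s := by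
  classical
  have h1 : ∀ s, ∃ φ : P → ℝ, (s ∈ Icc a b ∧ (p, s) ∈ S) → ContDiffAt ℝ n φ p ∧ φ p = s ∧
      ∀ᶠ v in 𝓝 (p, s), v ∈ S ↔ φ v.1 = v.2 := by
    intro s
    by_cases h : s ∈ Icc a b ∧ (p, s) ∈ S
    · rcases hf s h.1 with h' | ⟨φ, hφ⟩
      · exact absurd h.2 h'.self_of_nhds
      · exact ⟨φ, fun _ => hφ⟩
    · exact ⟨fun _ => 0, fun h' => absurd h' h⟩
  choose ψ hψ using h1
  have h2 : ∀ s ∈ Icc a b, ∀ᶠ v in 𝓝 (p, s), v ∈ S → (p, s) ∈ S ∧ ψ s v.1 = v.2 := by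
    intro s hs
    by_cases h : (p, s) ∈ S
    · filter_upwards [(hψ s ⟨hs, h⟩).2.2] with v hv h0 using ⟨h, hv.1 h0⟩
    · rcases hf s hs with h' | ⟨φ, -, h1, h2⟩
      · filter_upwards [h'] with v hv h0 using absurd h0 hv
      · exact absurd (h2.self_of_nhds.2 h1) h
  have h3 : ∀ s ∈ Icc a b, ∃ V ∈ 𝓝 p, ∃ I ∈ 𝓝 s,
      ∀ q ∈ V, ∀ t ∈ I, (q, t) ∈ S → (p, s) ∈ S ∧ ψ s q = t := by
    intro s hs
    obtain ⟨V, hV, I, hI, h⟩ := mem_nhds_prod_iff.1 (h2 s hs)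
    exact ⟨V, hV, I, hI, fun q hq t ht => h (mk_mem_prod hq ht)⟩
  choose! V hV I hI hVI using h3
  obtain ⟨T, hT, hcov⟩ := isCompact_Icc.elim_nhds_subcover I hI
  set Z := T.filter fun s => (p, s) ∈ S with hZ
  have hZ' : ∀ s ∈ Z, s ∈ Icc a b ∧ (p, s) ∈ S := fun s hs =>
    ⟨hT s (Finset.mem_filter.1 hs).1, (Finset.mem_filter.1 hs).2⟩
  set e := Z.orderEmbOfFin rfl with he
  have heZ : ∀ j, e j ∈ Z := fun j => Z.orderEmbOfFin_mem rfl j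
  refine ⟨Z.card, fun j => ψ (e j), fun j => (hψ _ (hZ' _ (heZ j))).1, ?_⟩
  have hc : ∀ j, Tendsto (ψ (e j)) (𝓝 p) (𝓝 (e j)) := fun j => by
    have := (hψ _ (hZ' _ (heZ j))).1.continuousAt.tendsto
    rwa [(hψ _ (hZ' _ (heZ j))).2.1] at this
  have k1 : ∀ᶠ q in 𝓝 p, ∀ i j, i < j → ψ (e i) q < ψ (e j) q := by
    simp only [eventually_all]
    intro i j hij
    exact (hc i).eventually_lt (hc j) (e.strictMono hij)
  have k2 : ∀ᶠ q in 𝓝 p, ∀ j, ψ (e j) q ∈ Icc a b ∧ (q, ψ (e j) q) ∈ S := by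
    rw [eventually_all]
    intro j
    obtain ⟨hs, h0⟩ := hZ' _ (heZ j)
    have a1 : a < e j := lt_of_le_of_ne hs.1 fun h => ha (by rw [h]; exact h0)
    have a2 : e j < b := lt_of_le_of_ne hs.2 fun h => hb (by rw [← h]; exact h0)
    have a3 : Tendsto (fun q => (q, ψ (e j) q)) (𝓝 p) (𝓝 (p, e j)) :=
      tendsto_id.prodMk_nhds (hc j)
    filter_upwards [(hc j).eventually (Icc_mem_nhds a1 a2), a3.eventually (hψ _ ⟨hs, h0⟩).2.2]
      with q h1 h2 using ⟨h1, h2.2 rfl⟩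
  have k3 : ∀ᶠ q in 𝓝 p, ∀ s ∈ T, q ∈ V s :=
    (eventually_all_finset T).2 fun s hs => hV s (hT s hs)
  filter_upwards [k1, k2, k3] with q h1 h2 h3
  refine ⟨fun i j hij => h1 i j hij, fun t => ⟨fun ht => ?_, ?_⟩⟩
  · obtain ⟨s, hs, hts⟩ := mem_iUnion₂.1 (hcov ht.1)
    obtain ⟨h4, h5⟩ := hVI s (hT s hs) q (h3 s hs) t hts ht.2
    have h6 : s ∈ range e := by
      rw [he, Finset.range_orderEmbOfFin]
      exact Finset.mem_filter.2 ⟨hs, h4⟩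
    obtain ⟨j, rfl⟩ := h6
    exact ⟨j, h5⟩
  · rintro ⟨j, rfl⟩
    exact h2 j

/-- a set which is locally a graph and has at most one point on one segment is empty or a graph -/
theorem empty_or_graph {K : Set P} (hK : IsPreconnected K) {a b : ℝ}
    (hf : ∀ p ∈ K, ∀ s ∈ Icc a b, LocGr n S (p, s)) (ha : ∀ p ∈ K, (p, a) ∉ S)
    (hb : ∀ p ∈ K, (p, b) ∉ S) {p₀ : P} (hp₀ : p₀ ∈ K)
    (h1 : {s | s ∈ Icc a b ∧ (p₀, s) ∈ S}.ncard ≤ 1) :
    (∀ p ∈ K, ∀ s ∈ Icc a b, (p, s) ∉ S) ∨ ∃ u : P → ℝ, ∀ p ∈ K, ContDiffAt ℝ n u p ∧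
      ∀ᶠ q in 𝓝 p, ∀ s, (s ∈ Icc a b ∧ (q, s) ∈ S) ↔ u q = s := by
  classical
  choose! m φ hφ hev using fun p (hp : p ∈ K) => stack_local (hf p hp) (ha p hp) (hb p hp)
  have h2 : ∀ p ∈ K, ∀ᶠ q in 𝓝 p, {s | s ∈ Icc a b ∧ (q, s) ∈ S}.ncard = m p := fun p hp =>
    (hev p hp).mono fun q hq => by
      have e : {s | s ∈ Icc a b ∧ (q, s) ∈ S} = range fun j => φ p j q := Set.ext hq.2
      rw [e, ncard_range_of_injective hq.1.injective]
      simp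
  have h3 : ∀ p ∈ K, m p = m p₀ := fun p hp => by
    rw [← (h2 p hp).self_of_nhds, ← (h2 p₀ hp₀).self_of_nhds]
    refine hK.constant (f := fun q => {s | s ∈ Icc a b ∧ (q, s) ∈ S}.ncard) (fun q hq => ?_) hp hp₀
    refine ContinuousAt.continuousWithinAt (tendsto_const_nhds.congr' ?_)
    filter_upwards [h2 q hq] with q' hq'
    rw [hq', (h2 q hq).self_of_nhds]
  rw [(h2 p₀ hp₀).self_of_nhds] at h1
  rcases Nat.le_one_iff_eq_zero_or_eq_one.1 h1 with h0 | h0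
  · refine Or.inl fun p hp s hs h => ?_
    obtain ⟨j, -⟩ := ((hev p hp).self_of_nhds.2 s).1 ⟨hs, h⟩
    have := j.2
    have := h3 p hp
    omega
  refine Or.inr ⟨fun q => Classical.epsilon fun s => s ∈ Icc a b ∧ (q, s) ∈ S, fun p hp => ?_⟩
  have h4 := (h3 p hp).trans h0
  obtain ⟨j, hj⟩ : ∃ j : Fin (m p), ∀ i, i = j :=
    ⟨⟨0, by omega⟩, fun i => Fin.ext (by have := i.2; simp only; omega)⟩
  have h5 : ∀ᶠ q in 𝓝 p, ∀ s, (s ∈ Icc a b ∧ (q, s) ∈ S) ↔ φ p j q = s := by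
    filter_upwards [hev p hp] with q hq s
    rw [hq.2]
    exact ⟨fun ⟨i, hi⟩ => hj i ▸ hi, fun h => ⟨j, h⟩⟩
  have h6 : ∀ᶠ q in 𝓝 p,
      (Classical.epsilon fun s => s ∈ Icc a b ∧ (q, s) ∈ S) = φ p j q := by
    filter_upwards [h5] with q hq
    exact ((hq _).1 (Classical.epsilon_spec (p := fun s => s ∈ Icc a b ∧ (q, s) ∈ S)
      ⟨_, (hq _).2 rfl⟩)).symm
  refine ⟨(hφ p hp j).congr_of_eventuallyEq h6, ?_⟩
  filter_upwards [h5, h6] with q a1 a2 s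
  rw [a2, a1]

end stack

open P218UA P218UG P218WA

variable {w : ℝ → E3 → ℝ} {I Z : Set ℝ} {A t : ℝ} {v : ℝ × E3 → ℝ} {N : Set (ℝ × E3)}
  {q : ℝ × E3}

/-- regular times accumulate from the left -/
lemma freq_left (hZ : volume Z = 0) (t : ℝ) : ∃ᶠ s in 𝓝 t, s < t ∧ s ∉ Z := by
  rw [frequently_iff]
  intro U hU
  obtain ⟨a, b, h1, h2⟩ := mem_nhds_iff_exists_Ioo_subset.1 hU
  obtain ⟨s, h3, h4⟩ := exists_notMem hZ h1.1
  exact ⟨s, h2 ⟨h3.1, h3.2.trans h1.2⟩, h3.2, h4⟩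

/-- closed conditions pass from the regular times to all times -/
lemma mem_of_left {X : Type*} [TopologicalSpace X] (hZ : volume Z = 0) {f : ℝ → X} {C : Set X}
    (hC : IsClosed C) (hf : ContinuousAt f t) (h : ∀ᶠ s in 𝓝 t, s < t → s ∉ Z → f s ∈ C) :
    f t ∈ C :=
  hC.mem_of_frequently_of_tendsto (((freq_left hZ t).and_eventually h).mono fun _ hs =>
    hs.2 hs.1.1 hs.1.2) hf

/-- the closure of the track -/
def Tk (w : ℝ → E3 → ℝ) : Set (ℝ × E3) := closure {q | w q.1 q.2 = 0}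

lemma loc_cd (h : Loc w Z v N) (hq : q ∈ N) : ContDiffAt ℝ ∞ v q :=
  h.smooth.contDiffAt (h.isOpen.mem_nhds hq)

/-- the derivative in a spatial direction -/
lemma hasDerivAt_dir {v : ℝ × E3 → ℝ} {x n : E3} {c : ℝ → E3} {s : ℝ} (hc : HasDerivAt c n s)
    (hx : c s = x) (hv : DifferentiableAt ℝ v (t, x)) :
    HasDerivAt (fun s => v (t, c s)) ⟪gradient (fun y => v (t, y)) x, n⟫ s := by
  rw [P218GA.inner_grad]
  subst hx
  exact HasFDerivAt.comp_hasDerivAt (f := c) (l := fun y => v (t, y)) s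
    (hv.comp (c s) (f := fun y => (t, y)) (by fun_prop)).hasFDerivAt hc

/-- the zeros of a local defining function are limits of earlier zeros at regular times -/
lemma loc_freq (hZ : volume Z = 0) (h : Loc w Z v N) (hq : q ∈ N) (h0 : v q = 0) :
    ∃ᶠ q' in 𝓝 q, q'.1 < q.1 ∧ q'.1 ∉ Z ∧ v q' = 0 := by
  obtain ⟨t, x⟩ := q
  obtain ⟨n, hn⟩ : ∃ n, n = gradient (fun y => v (t, y)) x := ⟨_, rfl⟩
  have hn1 : ‖n‖ = 1 := hn ▸ (h.eik _ hq h0).self_of_nhds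
  have h1 : ContDiffAt ℝ ∞ (fun z : ℝ × ℝ => v (z.1, x + z.2 • n)) (t, 0) :=
    ContDiffAt.comp (t, 0) (g := v) (by simpa using loc_cd h hq) (by fun_prop)
  have h2 : HasDerivAt (fun s : ℝ => x + s • n) n 0 := by
    simpa using ((hasDerivAt_id (0 : ℝ)).smul_const n).const_add x
  have h3 := (HasFDerivAt.comp_hasDerivAt (f := fun s : ℝ => (t, s)) 0
    (h1.differentiableAt (by simp)).hasFDerivAt
    ((hasDerivAt_const 0 t).prodMk (hasDerivAt_id 0))).unique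
    (hasDerivAt_dir h2 (by simp) ((loc_cd h hq).differentiableAt (by simp)))
  rw [← hn, real_inner_self_eq_norm_sq, hn1] at h3
  obtain ⟨φ, a1, a2, a3⟩ := exists_implicit (by simp) h1 (by simpa using h0) (by rw [h3]; norm_num)
  have a4 : Tendsto φ (𝓝 t) (𝓝 0) := a2 ▸ a1.continuousAt.tendsto
  have a5 : Tendsto (fun s => (s, x + φ s • n)) (𝓝 t) (𝓝 (t, x)) := by
    simpa using tendsto_id.prodMk_nhds ((a4.smul_const n).const_add x)
  refine a5.frequently (((freq_left hZ t).and_eventually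
    ((tendsto_id.prodMk_nhds a4).eventually a3)).mono fun s hs => ⟨hs.1.1, hs.1.2, hs.2.2 rfl⟩)

lemma mem_tk_iff (h : IsW0 w I Z A) (hl : Loc w Z v N) (hq : q ∈ N) : q ∈ Tk w ↔ v q = 0 := by
  rw [Tk, mem_closure_iff_frequently]
  have h1 := hl.isOpen.mem_nhds hq
  refine ⟨fun h2 => ?_, fun h2 => ((loc_freq h.null hl hq h2).and_eventually h1).mono
    fun q' h3 => (hl.zero q' h3.2 h3.1.2.1).1 h3.1.2.2⟩
  exact isClosed_singleton.mem_of_frequently_of_tendsto ((h2.and_eventually h1).mono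
    fun q' h3 => (hl.zero q' h3.2 (h.notMem h3.1)).2 h3.1) (loc_cd hl hq).continuousAt

lemma mem_tk_reg (h : IsW0 w I Z A) (hq : q.1 ∈ I \ Z) : q ∈ Tk w ↔ w q.1 q.2 = 0 := by
  obtain ⟨v, N, h1, h2⟩ := h.regAt hq
  rw [mem_tk_iff h h2 h1, h2.zero q h1 hq.2]

lemma tk_freq (h : IsW0 w I Z A) (hr : RegAt w Z q) (hq : q ∈ Tk w) :
    ∃ᶠ q' in 𝓝 q, q'.1 < q.1 ∧ w q'.1 q'.2 = 0 := by
  obtain ⟨v, N, h1, h2⟩ := hr
  exact ((loc_freq h.null h2 h1 ((mem_tk_iff h h2 h1).1 hq)).and_eventually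
    (h2.isOpen.mem_nhds h1)).mono fun q' h3 => ⟨h3.1.1, (h2.zero q' h3.2 h3.1.2.1).1 h3.1.2.2⟩

/-- at a regular time the normals agree up to the sign -/
lemma loc_inner_sq (hl : Loc w Z v N) (hq : q ∈ N) (hZ : q.1 ∉ Z) (h0 : v q = 0) (n : E3) :
    ⟪gradient (fun y => v (q.1, y)) q.2, n⟫ ^ 2 = ⟪gradient (w q.1) q.2, n⟫ ^ 2 := by
  obtain ⟨σ, h1, h2⟩ := hl.pm q hq hZ h0
  have h3 : (fun y => v (q.1, y)) =ᶠ[𝓝 q.2] fun y => σ * w q.1 y :=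
    (Continuous.prodMk_right q.1).continuousAt.eventually h2
  rw [P218GA.inner_grad, P218GA.inner_grad, h3.fderiv_eq]
  rcases h1 with rfl | rfl
  · simp
  · simp [fderiv_fun_neg]

/-- at a regular point of the closure of the track with a transverse vertical direction, the
closure is locally a graph -/
lemma locGr_tk (h : IsW0 w I Z A) {Q : E3 ≃ₗᵢ[ℝ] E3} {p : E3} {ξ : E2} {s c : ℝ} (hc : 0 < c)
    (hr : RegAt w Z (t, pt Q p ξ s))
    (ht : ∀ᶠ q in 𝓝 (t, pt Q p ξ s), q.1 < t → w q.1 q.2 = 0 →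
      c ≤ ⟪gradient (w q.1) q.2, nQ Q⟫ ^ 2) :
    LocGr ∞ {z : (ℝ × E2) × ℝ | (z.1.1, pt Q p z.1.2 z.2) ∈ Tk w} ((t, ξ), s) := by
  obtain ⟨v, N, hq, hl⟩ := hr
  have a1 : ContDiff ℝ ∞ fun z : (ℝ × E2) × ℝ => (z.1.1, pt Q p z.1.2 z.2) :=
    contDiff_fst.fst.prodMk (contDiff_pt.comp (contDiff_fst.snd.prodMk contDiff_snd))
  have a2 := a1.continuous.continuousAt (x := ((t, ξ), s))
  by_cases h0 : v (t, pt Q p ξ s) = 0
  swap
  · exact Or.inl (a2.eventually (isClosed_closure.isOpen_compl.mem_nhds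
      fun h1 => h0 ((mem_tk_iff h hl hq).1 h1)))
  have a3 : ContDiffAt ℝ ∞ (fun z : (ℝ × E2) × ℝ => v (z.1.1, pt Q p z.1.2 z.2)) ((t, ξ), s) :=
    ContDiffAt.comp _ (g := v) (loc_cd hl hq) a1.contDiffAt
  have a4 := (HasFDerivAt.comp_hasDerivAt (f := fun s : ℝ => ((t, ξ), s)) s
    (a3.differentiableAt (by simp)).hasFDerivAt
    ((hasDerivAt_const s (t, ξ)).prodMk (hasDerivAt_id s))).unique
    (hasDerivAt_dir (hasDerivAt_pt ξ s) rfl ((loc_cd hl hq).differentiableAt (by simp)))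
  have a5 : ContinuousAt (fun q : ℝ × E3 => ⟪gradient (fun y => v (q.1, y)) q.2, nQ Q⟫ ^ 2)
      (t, pt Q p ξ s) :=
    ((contDiffAt_grad (f := fun t y => v (t, y)) (m := 0) (by simp)
      (loc_cd hl hq)).continuousAt.inner continuousAt_const).pow 2
  have a6 : c ≤ ⟪gradient (fun y => v (t, y)) (pt Q p ξ s), nQ Q⟫ ^ 2 :=
    isClosed_Ici.mem_of_frequently_of_tendsto (((loc_freq h.null hl hq h0).and_eventually
      (ht.and (hl.isOpen.mem_nhds hq))).mono fun q h1 => by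
        rw [mem_Ici, loc_inner_sq hl h1.2.2 h1.1.2.1 h1.1.2.2]
        exact h1.2.1 h1.1.1 ((hl.zero q h1.2.2 h1.1.2.1).1 h1.1.2.2)) a5
  obtain ⟨φ, b1, b2, b3⟩ := exists_implicit (by simp) a3 h0 (fun e => by
    rw [← a4, e] at a6
    linarith)
  refine Or.inr ⟨φ, b1, b2, ?_⟩
  filter_upwards [b3, a2.eventually (hl.isOpen.mem_nhds hq)] with z b4 b5
  rw [← b4]
  exact mem_tk_iff h hl b5

end Vale.Agent.P218WS
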