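import Vale.Agent.P218UG.QS
import Vale.Agent.P218UX.Mono
import Vale.Agent.P218UT.Cyl
import Vale.Agent.P218WA.Props

/-! Weak flows: time averages of the mass ratio, good times, counting planes at quiet points. -/

open MeasureTheory Set Filter Topology Metric
open scoped ENNReal RealInnerProductSpace ContDiff

namespace Vale.Agent.P218WS

open P218UA P218UM P218UG P218WA

variable {w : ℝ → E3 → ℝ} {I Z : Set ℝ} {A : ℝ} {x z n : E3} {t t' r q σ δ : ℝ} {k : ℕ}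
  {a : Fin k → ℝ}

lemma contOn_reg (h : IsW0 w I Z A) {f : ℝ → ℝ} (hf : ∀ J, IsARFlow w J A → ContinuousOn f J) :
    ContinuousOn f (I \ Z) := fun _ ht =>
  let ⟨_, _, h1, _, h2⟩ := h.loc ht
  ((hf _ h2).continuousAt (isOpen_Ioo.mem_nhds h1)).continuousWithinAt

lemma integrableOn_of_null (hZ : volume Z = 0) (hc : IsClosed Z) {f : ℝ → ℝ} {b c B : ℝ}
    (hf : ContinuousOn f (Icc b c \ Z)) (hB : ∀ s ∈ Icc b c, |f s| ≤ B) :
    IntegrableOn f (Icc b c) := by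
  refine IntegrableOn.of_bound measure_Icc_lt_top ?_ B
    (ae_restrict_of_forall_mem measurableSet_Icc hB)
  rw [← Measure.restrict_congr_set (diff_ae_eq_self.2 (measure_mono_null inter_subset_right hZ))]
  exact hf.aestronglyMeasurable (measurableSet_Icc.diff hc.measurableSet)

lemma ii_mk (h : IsW0 w I Z A) (hq : 0 < q) {b c : ℝ} (hbc : b ≤ c) (hI : Icc b c ⊆ I) :
    IntervalIntegrable (fun s => mk (ar (w s)) x q) volume b c := by
  rw [intervalIntegrable_iff_integrableOn_Icc_of_le hbc]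
  refine integrableOn_of_null h.null h.closed ((contOn_reg h fun J hJ =>
    continuousOn_mk P218UX.calcThm hJ x hq).mono (sdiff_subset_sdiff_left hI)) (B := 4 / 3 * A)
    fun s hs => ?_
  rw [abs_of_nonneg (mk_nonneg _ _ _)]
  exact mk_le (h.ratio s (hI hs)) (by linarith [h.one_le]) x hq

lemma avg_le (h : IsW0 w I Z A) (hq : 0 < q) {T m : ℝ} (hT : 0 < T)
    (hI : Icc (t - T) t ⊆ I) (hm : ∀ s ∈ Icc (t - T) t, mk (ar (w s)) x q ≤ m) :
    (∫ s in (t - T)..t, mk (ar (w s)) x q) / T ≤ m := by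
  have h1 := intervalIntegral.integral_mono_on (by linarith) (ii_mk h hq (by linarith) hI)
    intervalIntegrable_const hm
  rw [intervalIntegral.integral_const, sub_sub_cancel, smul_eq_mul] at h1
  rw [div_le_iff₀ hT]
  linarith

lemma avg_ge (h : IsW0 w I Z A) (hq : 0 < q) {T T' m : ℝ} (hT' : 0 ≤ T')
    (hT : T' ≤ T) (hI : Icc (t - T) t ⊆ I)
    (hm : ∀ s ∈ Icc (t - T) (t - T'), s ∉ Z → m ≤ mk (ar (w s)) x q) :
    m * (T - T') ≤ ∫ s in (t - T)..t, mk (ar (w s)) x q := by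
  have i1 := ii_mk (x := x) h hq (by linarith : t - T ≤ t - T')
    ((Icc_subset_Icc le_rfl (by linarith)).trans hI)
  have i2 := ii_mk (x := x) h hq (by linarith : t - T' ≤ t)
    ((Icc_subset_Icc (by linarith) le_rfl).trans hI)
  have h1 := intervalIntegral.integral_mono_ae_restrict (by linarith)
    (intervalIntegrable_const (c := m)) i1 (by
      filter_upwards [ae_restrict_mem measurableSet_Icc, ae_restrict_of_ae (ae_notMem h.null)]
        with s a1 a2 using hm s a1 a2)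
  have h2 := intervalIntegral.integral_nonneg (μ := volume) (by linarith : t - T' ≤ t)
    (f := fun s => mk (ar (w s)) x q) fun s _ => mk_nonneg _ _ _
  rw [intervalIntegral.integral_const, smul_eq_mul] at h1
  rw [← intervalIntegral.integral_add_adjacent_intervals i1 i2]
  linarith

lemma mk_step (hM : MonoW) (h : IsW0 w I Z A) (hq : 0 < q) {t₁ t₂ c : ℝ} (h₁ : t₁ ∈ I \ Z)
    (h₂ : t₂ ∈ I) (h12 : t₁ ≤ t₂) (hc : t₂ - t₁ ≤ c * q ^ 2) :
    mk (ar (w t₂)) x q ≤ mk (ar (w t₁)) x q + 3 * A * c := by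
  have h1 := hM.mk_anti w I Z A h x q hq t₁ h₁ t₂ h₂ h12
  have hA : 0 ≤ A := by linarith [h.one_le]
  have h2 := mul_le_mul_of_nonneg_left hc (by positivity : 0 ≤ 3 * A / q ^ 2)
  have e : 3 * A / q ^ 2 * (c * q ^ 2) = 3 * A * c := by field_simp
  linarith

lemma k01_le (s : ℝ) : k01 s ≤ 1 := by
  have h : ∀ s, expNegInvGlue s ≤ 1 := fun s => by
    unfold expNegInvGlue
    split_ifs with h
    · norm_num
    · exact Real.exp_le_one_iff.2 (neg_nonpos.2 (inv_nonneg.2 (not_le.1 h).le))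
  exact mul_le_one₀ (h _) (expNegInvGlue.nonneg _) (h _)

/-- in every subwindow of a quiet window there is a regular time with small `beta` -/
theorem exists_good_time {a δ' : ℝ} (ha : 0 < a) (hδ' : 0 < δ') :
    ∃ δ > 0, ∀ w I Z A, IsW0 w I Z A → ∀ (z : E3) (r t : ℝ), 0 < r → Icc (t - r ^ 2) t ⊆ I →
      bbar w z r t < δ → ∀ b, a ≤ b → 2 * b ≤ 1 / 2 → ∃ s ∈ Icc b (2 * b), t - s * r ^ 2 ∉ Z ∧
        NearPl (ar (w (t - s * r ^ 2))) z r 10 δ' := by
  obtain ⟨κ, hκ, hk⟩ := exists_k01_ge ha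
  refine ⟨κ * a * δ', by positivity, fun w I Z A h z r t hr hI hb b hab hb2 => ?_⟩
  have hA : 0 ≤ A := by linarith [h.one_le]
  have hm : MapsTo (fun s : ℝ => t - s * r ^ 2) (Icc 0 1) I := fun s hs =>
    hI ⟨by nlinarith [hs.2, sq_nonneg r], by nlinarith [hs.1, sq_nonneg r]⟩
  have hZ : volume ((fun s : ℝ => t - s * r ^ 2) ⁻¹' Z) = 0 := by
    have a1 := (volume.measurePreserving_sub_left t).quasiMeasurePreserving.preimage_null h.null
    have a2 := Real.volume_preimage_mul_right (sq_pos_of_pos hr).ne' ((fun s : ℝ => t - s) ⁻¹' Z)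
    rw [a1, mul_zero] at a2
    exact a2
  have hc : IntegrableOn (fun s => k01 s * beta (ar (w (t - s * r ^ 2))) z r 10) (Icc 0 1) := by
    refine integrableOn_of_null hZ (h.closed.preimage (by fun_prop))
      (continuous_k01.continuousOn.mul ((contOn_reg h fun J hJ =>
        continuousOn_beta P218UX.calcThm hJ z hr (by norm_num)).comp (by fun_prop)
        fun s hs => ⟨hm hs.1, hs.2⟩)) (B := 1 * (A * 10 ^ 2)) fun s hs => ?_
    rw [abs_of_nonneg (mul_nonneg (k01_nonneg s) (beta_nonneg _ _ _ _))]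
    exact mul_le_mul (k01_le s) (beta_le (h.ratio _ (hm hs)) hA hr (by norm_num))
      (beta_nonneg _ _ _ _) zero_le_one
  have hsub : Icc b (2 * b) ⊆ Icc (0 : ℝ) 1 := Icc_subset_Icc (by linarith) (by linarith)
  by_contra hne
  push Not at hne
  have h2 : ∫ s in Icc b (2 * b), κ * δ'
      ≤ ∫ s in Icc b (2 * b), k01 s * beta (ar (w (t - s * r ^ 2))) z r 10 := by
    refine setIntegral_mono_on_ae (integrableOn_const isCompact_Icc.measure_lt_top.ne)
      (hc.mono_set hsub) measurableSet_Icc ?_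
    filter_upwards [ae_notMem hZ] with s hs' hs
    refine mul_le_mul (hk s ⟨by linarith [hs.1], by linarith [hs.2]⟩) (not_lt.1 fun h' => ?_)
      hδ'.le (k01_nonneg s)
    exact hne s hs hs' (nearPl_of_lt (h.ratio _ (hm (hsub hs))) hA hr (by norm_num) h')
  have h3 : ∫ s in Icc b (2 * b), k01 s * beta (ar (w (t - s * r ^ 2))) z r 10
      ≤ ∫ s in Icc 0 1, k01 s * beta (ar (w (t - s * r ^ 2))) z r 10 :=
    setIntegral_mono_set hc
      (Eventually.of_forall fun s => mul_nonneg (k01_nonneg s) (beta_nonneg _ _ _ _))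
      hsub.eventuallyLE
  rw [setIntegral_eq_integral_of_forall_compl_eq_zero (s := Icc 0 1) fun s hs => by
    rw [k01_eq_zero hs, zero_mul]] at h3
  rw [setIntegral_const, Real.volume_real_Icc_of_le (by linarith), smul_eq_mul] at h2
  have h4 : a * (κ * δ') ≤ (2 * b - b) * (κ * δ') :=
    mul_le_mul_of_nonneg_right (by linarith) (by positivity)
  unfold bbar at hb
  linarith

/-- good times at the scale `q` -/
lemma qs_good {E σ δ' : ℝ} (hE : 0 < E) (hσ : 0 < σ) (hσ' : σ ≤ 1 / 4)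
    (hδ' : 0 < δ') : ∃ δ > 0, ∀ w I Z A, IsW0 w I Z A → ∀ (z : E3) (r t : ℝ), 0 < r →
      Icc (t - r ^ 2) t ⊆ I → bbar w z r t < δ → ∀ c q : ℝ, 1 / 50 ≤ c → c ≤ 1 → 0 < q → q ≤ r →
        r ≤ E * q → ∃ τ ∈ Icc (c * (σ * q ^ 2)) (2 * (c * (σ * q ^ 2))), t - τ ∉ Z ∧
          ∃ (n : E3) (k : ℕ) (a : Fin k → ℝ), NP (ar (w (t - τ))) z r δ' n a := by
  obtain ⟨δ, hδ, h⟩ := exists_good_time (a := σ / (50 * E ^ 2)) (by positivity) hδ'
  refine ⟨δ, hδ, fun w I Z A hw z r t hr hI hb c q hc hc1 hq hqr hrq => ?_⟩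
  have hr2 : 0 < r ^ 2 := by positivity
  have a1 : q ^ 2 ≤ r ^ 2 := pow_le_pow_left₀ hq.le hqr 2
  have a2 : r ^ 2 ≤ (E * q) ^ 2 := pow_le_pow_left₀ hr.le hrq 2
  have a3 : 0 < σ * q ^ 2 := by positivity
  obtain ⟨s, hs, hZ, n, k, a, hn, hN⟩ := h w I Z A hw z r t hr hI hb (c * (σ * q ^ 2) / r ^ 2) (by
    rw [div_le_div_iff₀ (by positivity) hr2]
    have := mul_le_mul_of_nonneg_left a2 hσ.le
    have := mul_le_mul_of_nonneg_right hc (by positivity : 0 ≤ σ * q ^ 2 * (50 * E ^ 2))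
    linarith) (by
    rw [← mul_div_assoc, div_le_iff₀ hr2]
    have := mul_le_mul_of_nonneg_right hc1 a3.le
    have := mul_le_mul hσ' a1 (sq_nonneg q) (by norm_num)
    linarith)
  refine ⟨s * r ^ 2, ⟨(div_le_iff₀ hr2).1 hs.1, ?_⟩, hZ, n, k, a, hn, hr, hN⟩
  have := hs.2
  rwa [← mul_div_assoc, le_div_iff₀ hr2] at this

/-- two planes are seen at the next scale -/
lemma qs_b (hM : MonoW) (h : IsW0 w I Z A) {Λ : ℝ} (hσ : 0 < σ)
    (hσA : A * σ ≤ 1 / 100) (hq : 0 < q) (hΛ : 7 ≤ Λ) (hΛq : Λ * q ≤ r) (hx : ‖x - z‖ ≤ r)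
    (hI : Icc (t - r ^ 2) t ⊆ I) (ht' : t - t' ∈ Icc (σ * q ^ 2) (2 * σ * q ^ 2)) (hZ : t' ∉ Z)
    (hN : NP (ar (w t')) z r δ n a) (hδ0 : 0 ≤ δ) (hδ : 8 * (r / q) ^ 3 * δ ≤ 1 / 100)
    (h1 : 5 / 4 ≤ (∫ s in (t - σ * q ^ 2)..t, mk (ar (w s)) x q) / (σ * q ^ 2)) :
    17 / 10 ≤ (∫ s in (t - σ * (Λ * q) ^ 2)..t, mk (ar (w s)) x (Λ * q)) / (σ * (Λ * q) ^ 2) := by
  have hr := hN.pos
  have hσ1 : σ ≤ 1 := by nlinarith [h.one_le]
  have hΛ0 : 0 < Λ := by linarith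
  have hq1 : q ≤ Λ * q := by nlinarith
  have hT : 0 < σ * q ^ 2 := by positivity
  have hT1 : 49 * (σ * q ^ 2) ≤ σ * (Λ * q) ^ 2 := by
    have : 49 ≤ Λ ^ 2 := by nlinarith
    nlinarith
  have hT2 : σ * (Λ * q) ^ 2 ≤ r ^ 2 := by
    have := pow_le_pow_left₀ (by positivity) hΛq 2
    nlinarith [sq_nonneg (Λ * q)]
  have hI' : Icc (t - σ * (Λ * q) ^ 2) t ⊆ I := (Icc_subset_Icc (by linarith) le_rfl).trans hI
  have ht'I : t' ∈ I := hI' ⟨by linarith [ht'.2], by linarith [ht'.1]⟩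
  have h2 := avg_le (x := x) h hq hT ((Icc_subset_Icc (by linarith) le_rfl).trans hI')
    (m := mk (ar (w t')) x q + 3 * A * (2 * σ)) fun s hs => mk_step hM h hq ⟨ht'I, hZ⟩
      (hI' ⟨by linarith [hs.1], hs.2⟩) (by linarith [hs.1, ht'.1]) (by linarith [hs.2, ht'.2])
  have h3 := (abs_le.1 (hN.mk_near P218UT.cylDens hq (hq1.trans hΛq) (x := x) (by linarith))).2
  obtain ⟨i, j, hij, hi, hj⟩ := two_of_one_lt (a := fun i => ht z r n (a i) x / q) (by linarith)
  have h4 : ∀ i, |ht z r n (a i) x / q| < 1 → (ht z r n (a i) x / (Λ * q)) ^ 2 ≤ 1 / 49 := by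
    intro i hi
    have a1 : (ht z r n (a i) x / q) ^ 2 ≤ 1 := (sq_le_one_iff_abs_le_one _).2 hi.le
    have e : ht z r n (a i) x / (Λ * q) = ht z r n (a i) x / q / Λ := by field_simp
    rw [e, div_pow, div_le_iff₀ (by positivity)]
    nlinarith
  have h5 := two_le_sum (b := fun i => ht z r n (a i) x / (Λ * q)) hij (by norm_num) (h4 i hi)
    (h4 j hj)
  have h6 := (abs_le.1 (hN.mk_near P218UT.cylDens (ρ := Λ * q) (by positivity) hΛq (x := x)
    (by linarith))).1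
  have h7 : 8 * (r / (Λ * q)) ^ 3 * δ ≤ 8 * (r / q) ^ 3 * δ := by gcongr
  have h8 := avg_ge (x := x) h (q := Λ * q) (by positivity) (T' := 2 * σ * q ^ 2)
    (by positivity) (by linarith) hI' (m := 9 / 5) fun s hs hs' => by
      have := mk_step (x := x) hM h (q := Λ * q) (by positivity) (c := σ)
        ⟨hI' ⟨hs.1, by linarith [hs.2]⟩, hs'⟩ ht'I (by linarith [hs.2, ht'.2])
        (by linarith [hs.1, ht'.1])
      norm_num at h5
      linarith
  rw [le_div_iff₀ (by positivity)]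
  linarith

/-- at most one plane is close to `x` -/
lemma qs_one (hM : MonoW) (h : IsW0 w I Z A) (hσ : 0 < σ)
    (hσA : A * σ ≤ 1 / 100) (hq : 0 < q) (hqr : q ≤ r) (hx : ‖x - z‖ ≤ r)
    (hI : Icc (t - r ^ 2) t ⊆ I) (ht' : t - t' ∈ Icc 0 (σ * q ^ 2 / 25))
    (hN : NP (ar (w t')) z r δ n a) (hδ : 8 * (r / q) ^ 3 * δ ≤ 1 / 100)
    (h1 : (∫ s in (t - σ * q ^ 2)..t, mk (ar (w s)) x q) / (σ * q ^ 2) ≤ 27 / 20) {i j : Fin k}
    (hij : i ≠ j) (hi : |ht z r n (a i) x| ≤ q / 4) : q / 4 < |ht z r n (a j) x| := by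
  have hσ1 : σ ≤ 1 := by nlinarith [h.one_le]
  have hT : 0 < σ * q ^ 2 := by positivity
  have hT2 : σ * q ^ 2 ≤ r ^ 2 := by
    have := pow_le_pow_left₀ hq.le hqr 2
    nlinarith [sq_nonneg q]
  have hI' : Icc (t - σ * q ^ 2) t ⊆ I := (Icc_subset_Icc (by linarith) le_rfl).trans hI
  have ht'I : t' ∈ I := hI' ⟨by linarith [ht'.2], by linarith [ht'.1]⟩
  have h2 := avg_ge (x := x) h hq (T' := σ * q ^ 2 / 25) (by positivity) (by linarith) hI'
    (m := mk (ar (w t')) x q - 3 * A * σ) fun s hs hs' => by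
      have := mk_step (x := x) hM h hq (c := σ) ⟨hI' ⟨hs.1, by linarith [hs.2]⟩, hs'⟩ ht'I
        (by linarith [hs.2, ht'.2]) (by linarith [hs.1, ht'.1])
      linarith
  rw [div_le_iff₀ hT] at h1
  have h3 : mk (ar (w t')) x q - 3 * A * σ ≤ 45 / 32 := by
    refine le_of_mul_le_mul_right ?_ hT
    linarith
  have h4 := (abs_le.1 (hN.mk_near P218UT.cylDens hq hqr (x := x) (by linarith [hN.pos]))).1
  by_contra hj
  have h5 : ∀ i, |ht z r n (a i) x| ≤ q / 4 → (ht z r n (a i) x / q) ^ 2 ≤ 1 / 16 := by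
    intro i hi
    have := pow_le_pow_left₀ (abs_nonneg _) hi 2
    rw [div_pow, div_le_iff₀ (by positivity), ← sq_abs]
    linarith
  have h6 := two_le_sum (b := fun i => ht z r n (a i) x / q) hij (by norm_num) (h5 i hi)
    (h5 j (not_lt.1 hj))
  norm_num at h6
  linarith

end Vale.Agent.P218WS
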